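import Mathlib

/-!
# P099: continuous eigenfunctions of the billiard in a triangle
-/

namespace Vale.Agent.P099

open Set Metric
open scoped ComplexConjugate

/-- The mirror image of a velocity `v` in a line with direction `u`. -/
noncomputable def mirror (u v : ℂ) : ℂ := u / conj u * conj v

/-- A continuous eigenfunction, with eigenvalue `lam`, of the billiard flow in the triangle with
vertices `A`, `B`, `C`: a continuous function of a point of the closed triangle and a unit velocity
which picks up the factor `exp (i lam s)` along a segment travelled for a time `s` and is unchanged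
by specular reflection at each side. -/
def ContinuousEigenfunction (A B C : ℂ) (lam : ℝ) (f : ℂ × ℂ → ℂ) : Prop :=
  ContinuousOn f (convexHull ℝ {A, B, C} ×ˢ sphere 0 1) ∧
  (∀ p v : ℂ, ∀ s : ℝ, p ∈ convexHull ℝ {A, B, C} → ‖v‖ = 1 →
    p + s • v ∈ convexHull ℝ {A, B, C} →
    f (p + s • v, v) = Complex.exp ((lam * s : ℝ) * Complex.I) * f (p, v)) ∧
  (∀ p v : ℂ, ‖v‖ = 1 →
    (p ∈ segment ℝ A B → f (p, mirror (B - A) v) = f (p, v)) ∧
    (p ∈ segment ℝ B C → f (p, mirror (C - B) v) = f (p, v)) ∧
    (p ∈ segment ℝ C A → f (p, mirror (A - C) v) = f (p, v)))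

/-- The angle at `A` between the rays to `B` and to `C` is not a rational multiple of `π`. -/
def IrrationalAngle (A B C : ℂ) : Prop :=
  ∀ k : ℕ, 0 < k → (((C - A) / (B - A)) ^ k).im ≠ 0

end Vale.Agent.P099
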