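import Vale.Agent.P099.Polygon

/-!
# P099: continuous eigenfunctions of billiards in polygons with irrational corners

A continuous eigenfunction of the flow is constant and its eigenvalue is zero: its phase lifts to a
bounded function which grows linearly along an orbit that never meets a corner.
-/

namespace Vale.Agent.P099

open Set Filter Metric Function Complex
open scoped Topology ComplexConjugate RealInnerProductSpace

noncomputable section

variable {ι : Type*} {T : Table ι}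

/-- The hypotheses on the polygon and on a continuous eigenfunction with eigenvalue `lam`. -/
structure Wave (T : Table ι) (f : ℂ × ℂ → ℂ) (lam : ℝ) : Prop where
  bounded : IsCompact T.K
  nonempty : T.U.Nonempty
  irrational : ∀ p ∈ T.K, ∀ i j, i ≠ j → side (T.N i) (T.c i) p = 0 →
    side (T.N j) (T.c j) p = 0 → ∀ k : ℕ, 0 < k → (T.N i ^ 2 * conj (T.N j ^ 2)) ^ k ≠ 1
  cont : ContinuousOn f (T.K ×ˢ sphere 0 1)
  straight : ∀ p v, ∀ s : ℝ, p ∈ T.K → ‖v‖ = 1 → p + s • v ∈ T.K →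
    f (p + s • v, v) = Complex.exp ((lam * s : ℝ) * I) * f (p, v)
  reflect : ∀ i p v, p ∈ T.K → side (T.N i) (T.c i) p = 0 → ‖v‖ = 1 →
    f (p, refl (T.N i) v) = f (p, v)

theorem refl_neg (n v : ℂ) : refl n (-v) = -refl n v := by simp [refl]

theorem norm_refl {n v : ℂ} (hn : ‖n‖ = 1) : ‖refl n v‖ = ‖v‖ := by simp [refl, hn]

theorem dir_two_pi : dir (2 * Real.pi) = 1 := by simp [dir, Complex.exp_two_pi_mul_I]

/-- A continuous integer multiple of `2π` on a preconnected set is constant. -/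
theorem const_of_int {α : Type*} [TopologicalSpace α] {S : Set α} (hS : IsPreconnected S)
    {g : α → ℝ} (hg : ContinuousOn g S) (hint : ∀ x ∈ S, ∃ n : ℤ, g x = n * (2 * Real.pi))
    {x y : α} (hx : x ∈ S) (hy : y ∈ S) : g x = g y := by
  have h := hS.constant_of_mapsTo (T := range ((↑) : ℤ → ℝ)) (f := fun z => g z / (2 * Real.pi))
    Int.isClosedEmbedding_coe_real.isEmbedding.isInducing.isDiscrete_range
    (hg.div_const _) (fun z hz => ?_) hx hy
  · exact (div_left_inj' (by positivity)).1 h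
  · obtain ⟨n, hn⟩ := hint z hz
    refine ⟨n, ?_⟩
    show (n : ℝ) = g z / (2 * Real.pi)
    rw [hn]; field_simp

theorem dir_eq_dir {s t : ℝ} (h : dir s = dir t) : ∃ n : ℤ, s - t = n * (2 * Real.pi) := by
  obtain ⟨n, hn⟩ := Complex.exp_eq_exp_iff_exists_int.1 h
  refine ⟨n, ?_⟩
  have := congrArg Complex.im hn
  simp at this
  linarith

namespace Wave

variable [Finite ι] {f : ℂ × ℂ → ℂ} {lam : ℝ} (H : Wave T f lam)
include H

omit H [Finite ι] in
theorem convex_K : Convex ℝ T.K := fun a ha b hb s t hs ht hst i => by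
  show 0 ≤ ⟪T.N i, s • a + t • b⟫ - T.c i
  have h1 : 0 ≤ ⟪T.N i, a⟫ - T.c i := ha i
  have h2 : 0 ≤ ⟪T.N i, b⟫ - T.c i := hb i
  rw [inner_add_right, inner_smul_right, inner_smul_right]
  obtain rfl : t = 1 - s := by linarith
  nlinarith [mul_nonneg hs h1, mul_nonneg ht h2]

omit [Finite ι] in
/-- An integral built from the eigenfunction. -/
theorem integral_of {φ : ℂ × ℂ → ℝ} (hc : ContinuousOn φ (T.K ×ˢ sphere 0 1))
    (hs : ∀ p v, ∀ s : ℝ, p ∈ T.K → ‖v‖ = 1 → p + s • v ∈ T.K → φ (p + s • v, v) = φ (p, v))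
    (hr : ∀ i p v, p ∈ T.K → side (T.N i) (T.c i) p = 0 → ‖v‖ = 1 →
      φ (p, refl (T.N i) v) = φ (p, v)) : Integral T φ :=
  ⟨H.bounded, H.nonempty, H.irrational, hc, hs, hr⟩

theorem norm_const : ∃ r, ∀ p ∈ T.K, ∀ v, ‖v‖ = 1 → ‖f (p, v)‖ = r :=
  integral_const (H.integral_of (φ := fun q => ‖f q‖) H.cont.norm
    (fun p v s hp hv hs => by
      show ‖f _‖ = ‖f _‖
      rw [H.straight p v s hp hv hs, norm_mul, Complex.norm_exp_ofReal_mul_I, one_mul])
    fun i p v hp h hv => by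
      show ‖f _‖ = ‖f _‖
      rw [H.reflect i p v hp h hv])

omit [Finite ι] in
theorem corner_value {p : ℂ} (hp : p ∈ T.corners) {v : ℂ} (hv : ‖v‖ = 1) :
    f (p, v) = f (p, 1) := by
  obtain ⟨hpK, i, j, hij, hi, hj⟩ := hp
  have hr : ∀ w, ‖w‖ = 1 → f (p, T.N i ^ 2 * conj (T.N j ^ 2) * w) = f (p, w) := fun w hw => by
    have e : refl (T.N i) (refl (T.N j) w) = T.N i ^ 2 * conj (T.N j ^ 2) * w := by
      simp [refl]; ring
    rw [← e, H.reflect i p _ hpK hi (by rw [norm_refl (T.norm_N j), hw]),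
      H.reflect j p w hpK hj hw]
  have hc : ContinuousOn (fun v => f (p, v)) (sphere 0 1) :=
    H.cont.comp (continuous_const.prodMk continuous_id).continuousOn fun w hw => ⟨hpK, hw⟩
  apply Complex.ext
  · exact circle_const (g := fun v => (f (p, v)).re) (Complex.continuous_re.comp_continuousOn hc)
      (by simp [T.norm_N]) (H.irrational p hpK i j hij hi hj)
      (fun w hw => congrArg Complex.re (hr w hw)) hv
  · exact circle_const (g := fun v => (f (p, v)).im) (Complex.continuous_im.comp_continuousOn hc)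
      (by simp [T.norm_N]) (H.irrational p hpK i j hij hi hj)
      (fun w hw => congrArg Complex.im (hr w hw)) hv

theorem pair_const : ∃ κ : ℂ, ∀ p ∈ T.K, ∀ v, ‖v‖ = 1 → f (p, v) * f (p, -v) = κ := by
  have hc : ContinuousOn (fun q : ℂ × ℂ => f (q.1, q.2) * f (q.1, -q.2)) (T.K ×ˢ sphere 0 1) :=
    H.cont.mul (H.cont.comp (continuous_fst.prodMk continuous_snd.neg).continuousOn
      fun q hq => ⟨hq.1, by simpa [norm_neg] using hq.2⟩)
  have hs : ∀ p v, ∀ s : ℝ, p ∈ T.K → ‖v‖ = 1 → p + s • v ∈ T.K →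
      f (p + s • v, v) * f (p + s • v, -v) = f (p, v) * f (p, -v) := fun p v s hp hv hs => by
    have h := H.straight (p + s • v) (-v) s hs (by rw [norm_neg, hv])
      (by rw [smul_neg, add_neg_cancel_right]; exact hp)
    rw [smul_neg, add_neg_cancel_right] at h
    rw [h, H.straight p v s hp hv hs]
    ring
  have hr : ∀ i p v, p ∈ T.K → side (T.N i) (T.c i) p = 0 → ‖v‖ = 1 →
      f (p, refl (T.N i) v) * f (p, -refl (T.N i) v) = f (p, v) * f (p, -v) := fun i p v hp h hv => by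
    rw [← refl_neg, H.reflect i p v hp h hv, H.reflect i p _ hp h (by rw [norm_neg, hv])]
  obtain ⟨a, ha⟩ := integral_const (H.integral_of (Complex.continuous_re.comp_continuousOn hc)
    (fun p v s hp hv h => congrArg Complex.re (hs p v s hp hv h))
    fun i p v hp h hv => congrArg Complex.re (hr i p v hp h hv))
  obtain ⟨b, hb⟩ := integral_const (H.integral_of (Complex.continuous_im.comp_continuousOn hc)
    (fun p v s hp hv h => congrArg Complex.im (hs p v s hp hv h))
    fun i p v hp h hv => congrArg Complex.im (hr i p v hp h hv))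
  exact ⟨⟨a, b⟩, fun p hp v hv => Complex.ext (ha p hp v hv) (hb p hp v hv)⟩

omit [Finite ι] in
theorem exists_zero_side {p τ : ℂ} (hp : p ∈ T.K) (hτ : ‖τ‖ = 1) :
    ∃ s : ℝ, p + s • τ ∈ T.K ∧ ∀ r, p + r • τ ∈ T.K → r ≤ s := by
  have hcl : IsClosed {r : ℝ | p + r • τ ∈ T.K} :=
    H.bounded.isClosed.preimage (by fun_prop)
  have hbd : BddAbove {r : ℝ | p + r • τ ∈ T.K} := by
    obtain ⟨R, hR⟩ := H.bounded.isBounded.subset_closedBall p
    refine ⟨R, fun r hr => ?_⟩
    have h := mem_closedBall.1 (hR hr)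
    rw [dist_eq_norm, add_sub_cancel_left, norm_smul, hτ, mul_one, Real.norm_eq_abs] at h
    exact (le_abs_self r).trans h
  exact ⟨_, hcl.csSup_mem ⟨0, by simpa using hp⟩ hbd, fun r hr => le_csSup hbd hr⟩

/-- Every side which is met contains a corner. -/
theorem corner_on_side {i : ι} {p : ℂ} (hp : p ∈ T.K) (hi : side (T.N i) (T.c i) p = 0) :
    ∃ q ∈ T.corners, side (T.N i) (T.c i) q = 0 := by
  have hτ : ‖I * T.N i‖ = 1 := by simp [T.norm_N]
  have hperp : ⟪T.N i, I * T.N i⟫ = 0 := by simp [Complex.inner]; ring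
  obtain ⟨s, hs, hmax⟩ := H.exists_zero_side hp hτ
  have hsi : side (T.N i) (T.c i) (p + s • (I * T.N i)) = 0 := by
    rw [side_add, hi, hperp]; simp
  refine ⟨_, ⟨hs, ?_⟩, hsi⟩
  by_contra hc
  push Not at hc
  have hpos : ∀ᶠ ε in 𝓝[>] (0 : ℝ), p + (s + ε) • (I * T.N i) ∈ T.K := by
    refine eventually_all.2 fun j => ?_
    rcases eq_or_ne j i with rfl | hj
    · exact Eventually.of_forall fun ε => by rw [side_add, hi, hperp]; simp
    · have hc' : Continuous fun ε : ℝ => side (T.N j) (T.c j) (p + (s + ε) • (I * T.N i)) := by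
        unfold side; fun_prop
      have h0 : 0 < side (T.N j) (T.c j) (p + (s + 0) • (I * T.N i)) := by
        rw [add_zero]
        exact (hs j).lt_of_ne' fun h => hc i j hj.symm hsi h
      exact ((hc'.continuousAt.eventually (lt_mem_nhds h0)).mono fun _ h => h.le).filter_mono
        nhdsWithin_le_nhds
  obtain ⟨ε, hε, hεK⟩ := ((eventually_mem_nhdsWithin).and hpos).exists
  linarith [hmax _ hεK, show (0 : ℝ) < ε from hε]

omit [Finite ι] H in
/-- A real lift of a unimodular function of position and angle. -/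
theorem exists_lift {U : ℂ × ℝ → ℂ} (hU : ContinuousOn U (T.K ×ˢ univ))
    (h1 : ∀ p ∈ T.K, ∀ θ, ‖U (p, θ)‖ = 1) {q : ℂ} (hq : q ∈ T.K) (hq1 : U (q, 0) = 1) :
    ∃ Φ : ℂ × ℝ → ℝ, ContinuousOn Φ (T.K ×ˢ univ) ∧ ∀ p ∈ T.K, ∀ θ, dir (Φ (p, θ)) = U (p, θ) := by
  let seg : unitInterval × (T.K × ℝ) → ℂ × ℝ := fun x =>
    (q + (x.1 : ℝ) • ((x.2.1 : ℂ) - q), (x.1 : ℝ) * x.2.2)
  have hseg : ∀ x, seg x ∈ T.K ×ˢ (univ : Set ℝ) := fun x =>
    ⟨(convex_K (T := T)).add_smul_sub_mem hq x.2.1.2 x.1.2, mem_univ _⟩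
  let Hm : C(unitInterval × (T.K × ℝ), Circle) :=
    ⟨fun x => ⟨U (seg x), mem_sphere_zero_iff_norm.2 (h1 _ (hseg x).1 _)⟩,
      Continuous.subtype_mk (hU.comp_continuous (by fun_prop) hseg) _⟩
  have h0 : ∀ a, Hm (0, a) = Circle.exp ((fun _ => (0 : ℝ)) a) := fun a => by
    apply Subtype.ext
    show U (q + ((0 : unitInterval) : ℝ) • ((a.1 : ℂ) - q), ((0 : unitInterval) : ℝ) * a.2) = _
    simp only [Set.Icc.coe_zero, zero_smul, add_zero, zero_mul, hq1, Circle.exp_zero, Circle.coe_one]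
  let G := Circle.isCoveringMap_exp.liftHomotopy Hm (ContinuousMap.const _ 0) h0
  classical
  let Φ : ℂ × ℝ → ℝ := fun x => if h : x.1 ∈ T.K then G (1, (⟨x.1, h⟩, x.2)) else 0
  refine ⟨Φ, ?_, fun p hp θ => ?_⟩
  · rw [continuousOn_iff_continuous_domRestrict]
    have e : (T.K ×ˢ (univ : Set ℝ)).domRestrict Φ
        = fun x => G (1, (⟨x.1.1, x.2.1⟩, x.1.2)) := funext fun x => dif_pos x.2.1
    rw [e]
    exact (map_continuous G).comp (continuous_const.prodMk
      (((continuous_fst.comp continuous_subtype_val).subtype_mk _).prodMk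
        (continuous_snd.comp continuous_subtype_val)))
  · have h := congrFun (Circle.isCoveringMap_exp.liftHomotopy_lifts Hm (ContinuousMap.const _ 0) h0)
      (1, (⟨p, hp⟩, θ))
    simp only [Φ, dif_pos hp]
    calc dir (G (1, (⟨p, hp⟩, θ))) = (Circle.exp (G (1, (⟨p, hp⟩, θ))) : ℂ) :=
          (Circle.coe_exp _).symm
      _ = U (p, θ) := by
        rw [show Circle.exp (G (1, (⟨p, hp⟩, θ))) = Hm (1, (⟨p, hp⟩, θ)) from h]
        show U (q + ((1 : unitInterval) : ℝ) • (p - q), ((1 : unitInterval) : ℝ) * θ) = _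
        simp only [Set.Icc.coe_one, one_smul, add_sub_cancel, one_mul]

omit [Finite ι] H in
/-- A lift of a periodic unimodular function which is constant at one place is periodic. -/
theorem lift_periodic {U : ℂ × ℝ → ℂ} {Φ : ℂ × ℝ → ℝ} (hK : Convex ℝ T.K)
    (hΦc : ContinuousOn Φ (T.K ×ˢ univ)) (hΦ : ∀ p ∈ T.K, ∀ θ, dir (Φ (p, θ)) = U (p, θ))
    (hU : ∀ p ∈ T.K, ∀ θ θ', dir θ = dir θ' → U (p, θ) = U (p, θ')) {q₀ : ℂ} (hq₀ : q₀ ∈ T.K)
    (hconst : ∀ θ θ', Φ (q₀, θ) = Φ (q₀, θ')) :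
    ∀ p ∈ T.K, ∀ θ, Φ (p, θ) = Φ (p, (dir θ).arg) := by
  have hper : ∀ p ∈ T.K, ∀ θ, Φ (p, θ + 2 * Real.pi) = Φ (p, θ) := fun p hp θ => by
    have := const_of_int (S := T.K ×ˢ (univ : Set ℝ))
      (hK.prod (convex_univ (𝕜 := ℝ) (E := ℝ))).isPreconnected
      (g := fun x => Φ (x.1, x.2 + 2 * Real.pi) - Φ x)
      ((hΦc.comp (continuous_fst.prodMk (continuous_snd.add continuous_const)).continuousOn
        fun x hx => ⟨hx.1, mem_univ _⟩).sub hΦc)
      (fun x hx => dir_eq_dir (by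
        rw [hΦ x.1 hx.1, show dir (Φ x) = U x from hΦ x.1 hx.1 x.2]
        exact hU x.1 hx.1 _ _ (by rw [dir_add, dir_two_pi, mul_one])))
      (x := (p, θ)) (y := (q₀, θ)) ⟨hp, mem_univ _⟩ ⟨hq₀, mem_univ _⟩
    rw [hconst (θ + 2 * Real.pi) θ] at this
    simpa [sub_eq_zero] using this
  have harg : ∀ p ∈ T.K, ∀ θ, Φ (p, θ) = Φ (p, (dir θ).arg) := fun p hp θ => by
    obtain ⟨φ, hφ⟩ : ∃ φ, φ = (dir θ).arg := ⟨_, rfl⟩
    have hd : dir φ = dir θ := by
      have h := Complex.norm_mul_exp_arg_mul_I (dir θ)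
      rw [norm_dir, ofReal_one, one_mul] at h
      rw [hφ]; exact h
    obtain ⟨n, hn⟩ := dir_eq_dir hd.symm
    have hP : ∀ m : ℤ, ∀ a, Φ (p, a + m * (2 * Real.pi)) = Φ (p, a) := fun m => by
      induction m using Int.induction_on with
      | zero => simp
      | succ m ih => intro a; push_cast; rw [add_mul, ← add_assoc, one_mul, hper p hp]; exact ih a
      | pred m ih =>
        intro a
        have h := hper p hp (a + ((-(m : ℤ) - 1 : ℤ) : ℝ) * (2 * Real.pi))
        rw [← h, add_assoc, ← add_one_mul]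
        push_cast
        rw [sub_add_cancel]
        simpa using ih a
    rw [← hφ, show θ = φ + n * (2 * Real.pi) by linarith, hP n φ]
  exact harg

omit [Finite ι] in
/-- The lift grows linearly along segments. -/
theorem lift_straight {κ : ℂ} {Φ : ℂ × ℝ → ℝ} (hΦc : ContinuousOn Φ (T.K ×ˢ univ))
    (hΦ : ∀ p ∈ T.K, ∀ θ, dir (Φ (p, θ)) = f (p, dir θ) ^ 2 / κ) {p : ℂ} {θ s : ℝ} (hp : p ∈ T.K)
    (hs : p + s • dir θ ∈ T.K) : Φ (p + s • dir θ, θ) = Φ (p, θ) + 2 * lam * s := by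
  have hI : Convex ℝ {a : ℝ | p + a • dir θ ∈ T.K} := fun a ha b hb c d hc hd hcd => by
    show p + (c • a + d • b) • dir θ ∈ T.K
    have e : p + (c • a + d • b) • dir θ = c • (p + a • dir θ) + d • (p + b • dir θ) := by
      obtain rfl : d = 1 - c := by linarith
      simp only [smul_eq_mul]
      module
    rw [e]
    exact (convex_K (T := T)) ha hb hc hd hcd
  have := const_of_int hI.isPreconnected
    (g := fun a => Φ (p + a • dir θ, θ) - (Φ (p, θ) + 2 * lam * a))
    ((hΦc.comp (f := fun a : ℝ => (p + a • dir θ, θ)) (by fun_prop)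
      fun a ha => ⟨ha, mem_univ _⟩).sub (by fun_prop))
    (fun a ha => dir_eq_dir (by
      rw [hΦ _ ha, dir_add, hΦ p hp, H.straight p _ a hp (norm_dir θ) ha, mul_pow,
        show Complex.exp ((lam * a : ℝ) * I) ^ 2 = dir (2 * lam * a) by
          rw [dir, ← Complex.exp_nat_mul]; congr 1; push_cast; ring]
      ring))
    (x := s) (y := 0) hs (by show p + (0 : ℝ) • dir θ ∈ T.K; rw [zero_smul, add_zero]; exact hp)
  simp only [zero_smul, add_zero, mul_zero, sub_self] at this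
  linarith

/-- The phase of a unimodular eigenfunction. -/
theorem exists_phase {r : ℝ} (hr : ∀ p ∈ T.K, ∀ v, ‖v‖ = 1 → ‖f (p, v)‖ = r) (hr0 : r ≠ 0) :
    ∃ g : ℂ × ℂ → ℝ, (∃ C, ∀ p ∈ T.K, ∀ v, ‖v‖ = 1 → |g (p, v)| ≤ C) ∧
      (∀ p v, ∀ s : ℝ, p ∈ T.K → ‖v‖ = 1 → p + s • v ∈ T.K →
        g (p + s • v, v) = g (p, v) + 2 * lam * s) ∧
      ∀ i p v, p ∈ T.K → side (T.N i) (T.c i) p = 0 → ‖v‖ = 1 →
        g (p, refl (T.N i) v) = g (p, v) := by
  obtain ⟨κ, hκ⟩ := H.pair_const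
  obtain ⟨q₀, hq₀⟩ : ∃ q, q ∈ T.corners := by
    obtain ⟨x, hx⟩ := H.nonempty
    obtain ⟨θ, -, p, hp, -⟩ :=
      (H.integral_of (φ := fun _ => (0 : ℝ)) continuousOn_const (fun _ _ _ _ _ _ => rfl)
        fun _ _ _ _ _ _ => rfl).hits hx (zero_lt_one (α := ℝ))
    exact ⟨p, hp⟩
  have hfne : ∀ p ∈ T.K, ∀ v, ‖v‖ = 1 → f (p, v) ≠ 0 := fun p hp v hv h =>
    hr0 (by rw [← hr p hp v hv, h, norm_zero])
  have hκ0 : κ ≠ 0 := by
    rw [← hκ q₀ hq₀.1 1 norm_one]
    exact mul_ne_zero (hfne _ hq₀.1 _ norm_one) (hfne _ hq₀.1 _ (by simp))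
  obtain ⟨U, hUdef⟩ : ∃ U : ℂ × ℝ → ℂ, ∀ p θ, U (p, θ) = f (p, dir θ) ^ 2 / κ :=
    ⟨fun x => f (x.1, dir x.2) ^ 2 / κ, fun _ _ => rfl⟩
  have hUc : ContinuousOn U (T.K ×ˢ univ) := by
    rw [show U = fun x => f (x.1, dir x.2) ^ 2 / κ from funext fun x => hUdef x.1 x.2]
    exact ((H.cont.comp (continuous_fst.prodMk (continuous_dir.comp continuous_snd)).continuousOn
      fun x hx => ⟨hx.1, mem_sphere_zero_iff_norm.2 (norm_dir _)⟩).pow 2).div_const _
  have hU1 : ∀ p ∈ T.K, ∀ θ, ‖U (p, θ)‖ = 1 := fun p hp θ => by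
    rw [hUdef, norm_div, norm_pow, hr p hp _ (norm_dir θ), ← hκ p hp _ (norm_dir θ), norm_mul,
      hr p hp _ (norm_dir θ), hr p hp _ (by rw [norm_neg, norm_dir]), sq,
      div_self (mul_ne_zero hr0 hr0)]
  have hUq : ∀ q ∈ T.corners, ∀ θ, U (q, θ) = 1 := fun q hq θ => by
    rw [hUdef, ← hκ q hq.1 1 norm_one, H.corner_value hq (norm_dir θ),
      H.corner_value hq (v := -1) (by simp), ← sq,
      div_self (pow_ne_zero 2 (hfne q hq.1 1 norm_one))]
  obtain ⟨Φ, hΦc, hΦ⟩ := exists_lift hUc hU1 hq₀.1 (hUq q₀ hq₀ 0)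
  have hsplit : ∀ p ∈ T.K, ∀ p' ∈ T.K, ∀ θ θ' : ℝ, U (p, θ) = U (p', θ') →
      ∃ n : ℤ, Φ (p, θ) - Φ (p', θ') = n * (2 * Real.pi) := fun p hp p' hp' θ θ' h =>
    dir_eq_dir (by rw [hΦ p hp, hΦ p' hp', h])
  have hcorner : ∀ q ∈ T.corners, ∀ θ θ', Φ (q, θ) = Φ (q, θ') := fun q hq θ θ' => by
    have := const_of_int (S := (univ : Set ℝ)) isPreconnected_univ
      (g := fun a => Φ (q, a) - Φ (q, θ'))
      ((hΦc.comp (continuous_const.prodMk continuous_id).continuousOn
        fun a _ => ⟨hq.1, mem_univ _⟩).sub continuousOn_const)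
      (fun a _ => hsplit _ hq.1 _ hq.1 _ _ (by rw [hUq q hq, hUq q hq])) (mem_univ θ) (mem_univ θ')
    simpa [sub_eq_zero] using this
  have harg := lift_periodic (convex_K (T := T)) hΦc hΦ (fun p _ θ θ' h => by
    rw [hUdef, hUdef, h]) hq₀.1 (hcorner q₀ hq₀)
  refine ⟨fun x => Φ (x.1, x.2.arg), ?_, fun p v s hp hv hs => ?_, fun i p v hp hi hv => ?_⟩
  · obtain ⟨C, hC⟩ := (H.bounded.prod (isCompact_Icc (a := -Real.pi) (b := Real.pi))
      ).exists_bound_of_continuousOn (hΦc.mono (prod_mono_right (subset_univ _)))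
    exact ⟨C, fun p hp v _ => hC _ ⟨hp, (Complex.neg_pi_lt_arg v).le, Complex.arg_le_pi v⟩⟩
  · obtain ⟨θ, rfl⟩ := exists_dir hv
    show Φ _ = Φ _ + _
    rw [← harg _ hs, ← harg _ hp]
    exact H.lift_straight (κ := κ) hΦc (fun p hp θ => by rw [hΦ p hp, hUdef]) hp hs
  · obtain ⟨α, hα⟩ := exists_dir (T.norm_N i)
    obtain ⟨θ, rfl⟩ := exists_dir hv
    have e : ∀ a, refl (T.N i) (dir a) = dir (2 * α + Real.pi - a) := fun a => by
      rw [← hα]
      simp only [refl, dir, ← Complex.exp_conj, map_mul, conj_ofReal, conj_I, ← Complex.exp_nat_mul,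
        ← Complex.exp_add]
      rw [← neg_one_mul, ← Complex.exp_pi_mul_I, ← Complex.exp_add]
      congr 1
      push_cast
      ring
    obtain ⟨q, hq, hqi⟩ := H.corner_on_side hp hi
    show Φ _ = Φ _
    rw [e, ← harg p hp, ← harg p hp]
    have hS : Convex ℝ {x ∈ T.K | side (T.N i) (T.c i) x = 0} := fun a ha b hb c d hc hd hcd => by
      refine ⟨(convex_K (T := T)) ha.1 hb.1 hc hd hcd, ?_⟩
      have h1 : ⟪T.N i, a⟫ - T.c i = 0 := ha.2
      have h2 : ⟪T.N i, b⟫ - T.c i = 0 := hb.2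
      show ⟪T.N i, c • a + d • b⟫ - T.c i = 0
      rw [inner_add_right, inner_smul_right, inner_smul_right]
      linear_combination c * h1 + d * h2 + T.c i * hcd
    have := const_of_int (hS.prod (convex_univ (𝕜 := ℝ) (E := ℝ))).isPreconnected
      (g := fun x => Φ (x.1, 2 * α + Real.pi - x.2) - Φ x)
      ((hΦc.comp (continuous_fst.prodMk (continuous_const.sub continuous_snd)).continuousOn
        fun x hx => ⟨hx.1.1, mem_univ _⟩).sub (hΦc.mono fun x hx => ⟨hx.1.1, hx.2⟩))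
      (fun x hx => hsplit x.1 hx.1.1 x.1 hx.1.1 _ _ (by
        rw [hUdef, hUdef, ← e, H.reflect i x.1 _ hx.1.1 hx.1.2 (norm_dir _)]))
      (x := (p, θ)) (y := (q, θ)) ⟨⟨hp, hi⟩, mem_univ _⟩ ⟨⟨hq.1, hqi⟩, mem_univ _⟩
    rw [hcorner q hq (2 * α + Real.pi - θ) θ] at this
    simpa [sub_eq_zero] using this

end Wave

/-- The development of the polygon along a list of sides (last side first). -/
def develop (T : Table ι) (x : ℂ) : List ι → Beam
  | [] => ⟨x, LinearIsometryEquiv.refl ℝ ℂ, fun _ => 0⟩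
  | i :: l => (develop T x l).next T i

/-- From every inner point some orbit never meets a corner. -/
theorem exists_good_direction [Countable ι] (hfin : T.corners.Countable) (x : ℂ) :
    ∃ θ, ∀ l : List ι, ∀ r : ℝ, 0 < r →
      (develop T x l).o + r • (develop T x l).L (dir θ) ∉ T.corners := by
  set bad : Set ℂ := ⋃ l : List ι, ⋃ p ∈ T.corners,
    {(develop T x l).L.symm (‖p - (develop T x l).o‖⁻¹ • (p - (develop T x l).o))}
  have hbad : bad.Countable :=
    countable_iUnion fun l => hfin.biUnion fun p _ => countable_singleton _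
  have huniv : ¬ (univ : Set ℝ).Countable := by
    rw [countable_univ_iff]; exact not_countable
  by_contra hc
  push Not at hc
  refine huniv ?_
  have hsub : (univ : Set ℝ) ⊆ dir ⁻¹' bad := fun θ _ => by
    obtain ⟨l, r, hr, hmem⟩ := hc θ
    refine mem_iUnion.2 ⟨l, mem_iUnion₂.2 ⟨_, hmem, ?_⟩⟩
    rw [mem_singleton_iff, add_sub_cancel_left, norm_smul, LinearIsometryEquiv.norm_map, norm_dir,
      mul_one, Real.norm_eq_abs, abs_of_pos hr, smul_smul, inv_mul_cancel₀ hr.ne', one_smul,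
      LinearIsometryEquiv.symm_apply_apply]
  refine Set.Countable.mono hsub ?_
  have h1 : ∀ z, (dir ⁻¹' {z}).Countable := fun z => by
    rcases (dir ⁻¹' {z}).eq_empty_or_nonempty with h | ⟨a, ha⟩
    · rw [h]; exact countable_empty
    · refine (countable_range fun n : ℤ => a + n * (2 * Real.pi)).mono fun b hb => ?_
      obtain ⟨n, hn⟩ := dir_eq_dir ((hb : dir b = z).trans (ha : dir a = z).symm)
      exact ⟨n, by show a + n * (2 * Real.pi) = b; linarith⟩
  rw [show dir ⁻¹' bad = ⋃ z ∈ bad, dir ⁻¹' {z} by ext; simp]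
  exact hbad.biUnion fun z _ => h1 z

/-- A bounded function cannot grow linearly along all orbits. -/
theorem drift_zero [Finite ι] (hK : IsCompact T.K) (hfin : T.corners.Countable) {x : ℂ}
    (hx : x ∈ T.U) {g : ℂ × ℂ → ℝ} {μ C : ℝ}
    (hC : ∀ p ∈ T.K, ∀ v, ‖v‖ = 1 → |g (p, v)| ≤ C)
    (hs : ∀ p v, ∀ s : ℝ, p ∈ T.K → ‖v‖ = 1 → p + s • v ∈ T.K →
      g (p + s • v, v) = g (p, v) + μ * s)
    (hr : ∀ i p v, p ∈ T.K → side (T.N i) (T.c i) p = 0 → ‖v‖ = 1 →
      g (p, refl (T.N i) v) = g (p, v)) : μ = 0 := by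
  by_contra hμ
  obtain ⟨θ, hθ⟩ := exists_good_direction hfin x
  let P : List ι → ℝ → Prop := fun l t =>
    0 ≤ t ∧ (develop T x l).o + t • (develop T x l).L (dir θ) ∈ T.K ∧
      (∃ s, t < s ∧ (develop T x l).o + s • (develop T x l).L (dir θ) ∈ T.U) ∧
      g ((develop T x l).o + t • (develop T x l).L (dir θ), (develop T x l).L (dir θ))
        = g (x, dir θ) + μ * t
  have h0 : P [] 0 := by
    refine ⟨le_rfl, ?_, ?_, ?_⟩
    · show x + (0 : ℝ) • dir θ ∈ T.K
      rw [zero_smul, add_zero]; exact fun i => (hx i).le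
    · have hev : ∀ᶠ s in 𝓝[>] (0 : ℝ), x + s • dir θ ∈ T.U := by
        refine eventually_all.2 fun j => ?_
        have hc : Continuous fun s : ℝ => side (T.N j) (T.c j) (x + s • dir θ) := by
          unfold side; fun_prop
        exact (hc.continuousAt.eventually (lt_mem_nhds (by simpa using hx j))).filter_mono
          nhdsWithin_le_nhds
      obtain ⟨s, hs0, hsU⟩ := ((eventually_mem_nhdsWithin).and hev).exists
      exact ⟨s, hs0, hsU⟩
    · show g (x + (0 : ℝ) • dir θ, dir θ) = _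
      rw [zero_smul, add_zero, mul_zero, add_zero]
  have hstep : ∀ q : {q : List ι × ℝ // P q.1 q.2}, ∃ i, T.Exit i (develop T x q.1.1).o
      ((develop T x q.1.1).L (dir θ)) ∧
      q.1.2 < T.time i (develop T x q.1.1).o ((develop T x q.1.1).L (dir θ)) ∧
      P (i :: q.1.1) (T.time i (develop T x q.1.1).o ((develop T x q.1.1).L (dir θ))) := by
    rintro ⟨⟨l, t⟩, ht0, htK, ⟨s, hts, hsU⟩, hg⟩
    set B := develop T x l with hB
    set t₁ := fun i => T.time i B.o (B.L (dir θ)) with ht₁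
    have hw : ‖B.L (dir θ)‖ = 1 := by rw [B.L.norm_map, norm_dir]
    obtain ⟨i, hi, hst⟩ := T.exit_exists hK hw hsU fun r hr' _ =>
      hθ l r ((ht0.trans_lt hts).trans hr')
    refine ⟨i, hi, hts.trans hst, ht0.trans (hts.trans hst).le, ?_, ?_, ?_⟩
    · have := B.next_point T i θ hi.1.ne
      show (B.next T i).o + (B.next T i).t θ • (B.next T i).L (dir θ) ∈ T.K
      rw [this]; exact hi.mem
    · set y := B.o + t₁ i • B.L (dir θ)
      set w' := (B.next T i).L (dir θ)
      have hsl : 0 < ⟪T.N i, w'⟫ := by rw [B.next_slope T i]; linarith [hi.1]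
      have hev : ∀ᶠ ε in 𝓝[>] (0 : ℝ), y + ε • w' ∈ T.U := by
        refine eventually_all.2 fun j => ?_
        rcases eq_or_ne j i with rfl | hj
        · filter_upwards [self_mem_nhdsWithin] with ε hε
          rw [side_add, T.side_time j B.o hi.1.ne, zero_add]
          exact mul_pos hε hsl
        · have hc : Continuous fun ε : ℝ => side (T.N j) (T.c j) (y + ε • w') := by
            unfold side; fun_prop
          exact (hc.continuousAt.eventually (lt_mem_nhds (by
            show 0 < side (T.N j) (T.c j) (y + (0 : ℝ) • w')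
            rw [zero_smul, add_zero]; exact hi.2 j hj))).filter_mono nhdsWithin_le_nhds
      obtain ⟨ε, hε0, hεU⟩ := ((eventually_mem_nhdsWithin).and hev).exists
      refine ⟨t₁ i + ε, lt_add_of_pos_right _ hε0, ?_⟩
      show (B.next T i).o + (t₁ i + ε) • (B.next T i).L (dir θ) ∈ T.U
      rw [add_smul, ← add_assoc, show (B.next T i).o + t₁ i • (B.next T i).L (dir θ) = y from
        B.next_point T i θ hi.1.ne]
      exact hεU
    · show g ((B.next T i).o + (B.next T i).t θ • (B.next T i).L (dir θ), _) = _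
      rw [B.next_point T i θ hi.1.ne]
      show g (_, reflL (T.N i) (T.norm_N i) (B.L (dir θ))) = _
      rw [reflL_apply, hr i _ _ hi.mem (T.side_time i B.o hi.1.ne) hw]
      have h := hs _ _ (t₁ i - t) htK hw
        (by rw [add_assoc, ← add_smul, add_sub_cancel]; exact hi.mem)
      rw [add_assoc, ← add_smul, add_sub_cancel, hg] at h
      rw [h]; simp only [ht₁]; ring
  choose side' hside using hstep
  let seq : ℕ → {q : List ι × ℝ // P q.1 q.2} := fun n =>
    Nat.rec ⟨([], 0), h0⟩ (fun _ q => ⟨(side' q :: q.1.1, _), (hside q).2.2⟩) n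
  have hb : BddAbove (range fun n => (seq n).1.2) := by
    refine ⟨2 * C / |μ|, ?_⟩
    rintro _ ⟨n, rfl⟩
    show (seq n).1.2 ≤ _
    obtain ⟨ht0, htK, -, hg⟩ := (seq n).2
    rw [le_div_iff₀ (abs_pos.2 hμ)]
    have h1 := hC _ htK ((develop T x (seq n).1.1).L (dir θ))
      (by rw [LinearIsometryEquiv.norm_map, norm_dir])
    rw [hg] at h1
    have h2 := hC x (fun i => (hx i).le) (dir θ) (norm_dir θ)
    calc (seq n).1.2 * |μ| = |μ * (seq n).1.2| := by rw [abs_mul, abs_of_nonneg ht0]; ring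
      _ = |(g (x, dir θ) + μ * (seq n).1.2) - g (x, dir θ)| := by rw [add_sub_cancel_left]
      _ ≤ 2 * C := (abs_sub _ _).trans (by linarith)
  exact T.orbit_unbounded (fun n => (develop T x (seq n).1.1).o)
    (fun n => (develop T x (seq n).1.1).L (dir θ)) (fun n => (seq n).1.2)
    (fun n => side' (seq n)) (fun n => by rw [LinearIsometryEquiv.norm_map, norm_dir])
    (fun n => (hside (seq n)).1) (fun n => rfl)
    (strictMono_nat_of_lt_succ fun n => (hside (seq n)).2.1) (fun n => rfl)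
    (fun n => Beam.next_L T (develop T x (seq n).1.1) (side' (seq n)) (dir θ)) hb

/-- Continuous eigenfunctions are constant, and only the eigenvalue zero occurs. -/
theorem wave_const [Finite ι] {f : ℂ × ℂ → ℂ} {lam : ℝ} (H : Wave T f lam) :
    ∃ c, (∀ p ∈ T.K, ∀ v, ‖v‖ = 1 → f (p, v) = c) ∧ (lam = 0 ∨ c = 0) := by
  obtain ⟨r, hr⟩ := H.norm_const
  by_cases hr0 : r = 0
  · exact ⟨0, fun p hp v hv => norm_eq_zero.1 ((hr p hp v hv).trans hr0), Or.inr rfl⟩
  obtain ⟨g, ⟨C, hC⟩, hgs, hgr⟩ := H.exists_phase hr hr0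
  obtain ⟨x, hx⟩ := H.nonempty
  have hI := H.integral_of (φ := fun _ => (0 : ℝ)) continuousOn_const (fun _ _ _ _ _ _ => rfl)
    fun _ _ _ _ _ _ => rfl
  have hlam : lam = 0 := by
    have h := drift_zero H.bounded hI.finite_corners.countable hx hC hgs hgr
    simpa using h
  have hs : ∀ p v, ∀ s : ℝ, p ∈ T.K → ‖v‖ = 1 → p + s • v ∈ T.K →
      f (p + s • v, v) = f (p, v) := fun p v s hp hv hs => by
    rw [H.straight p v s hp hv hs, hlam]; simp
  obtain ⟨a, ha⟩ := integral_const (H.integral_of (Complex.continuous_re.comp_continuousOn H.cont)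
    (fun p v s hp hv h => congrArg Complex.re (hs p v s hp hv h))
    fun i p v hp h hv => congrArg Complex.re (H.reflect i p v hp h hv))
  obtain ⟨b, hb⟩ := integral_const (H.integral_of (Complex.continuous_im.comp_continuousOn H.cont)
    (fun p v s hp hv h => congrArg Complex.im (hs p v s hp hv h))
    fun i p v hp h hv => congrArg Complex.im (H.reflect i p v hp h hv))
  exact ⟨⟨a, b⟩, fun p hp v hv => Complex.ext (ha p hp v hv) (hb p hp v hv), Or.inl hlam⟩

end

end Vale.Agent.P099
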