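import Mathlib

/-!
# P099: continuous first integrals of billiards in polygons with irrational corners

`integral_const`: in a compact convex polygon whose corner angles are irrational multiples of `π`,
a continuous function of position and direction which is constant along straight segments and
unchanged by the reflection at every side is constant.
-/

namespace Vale.Agent.P099

open Set Filter Metric Function Complex
open scoped Topology ComplexConjugate RealInnerProductSpace

noncomputable section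

/-- The defining function of the side with inward normal `n` and offset `c`. -/
def side (n : ℂ) (c : ℝ) (p : ℂ) : ℝ := ⟪n, p⟫ - c

/-- The specular reflection of velocities at a side with unit normal `n`. -/
def refl (n v : ℂ) : ℂ := -(n ^ 2 * conj v)

/-- The unit vector of an angle. -/
def dir (θ : ℝ) : ℂ := Complex.exp (θ * I)

theorem norm_dir (θ : ℝ) : ‖dir θ‖ = 1 := Complex.norm_exp_ofReal_mul_I θ

theorem continuous_dir : Continuous dir := by unfold dir; fun_prop

theorem exists_dir {v : ℂ} (hv : ‖v‖ = 1) : ∃ θ, dir θ = v := by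
  refine ⟨v.arg, ?_⟩
  have h := Complex.norm_mul_exp_arg_mul_I v
  rw [hv, ofReal_one, one_mul] at h
  exact h

theorem dir_add (s t : ℝ) : dir (s + t) = dir s * dir t := by
  simp [dir, add_mul, Complex.exp_add]

/-- A continuous function on the circle invariant under an irrational rotation is constant. -/
theorem circle_const {g : ℂ → ℝ} (hg : ContinuousOn g (sphere 0 1)) {r : ℂ} (hr : ‖r‖ = 1)
    (hirr : ∀ k : ℕ, 0 < k → r ^ k ≠ 1) (hinv : ∀ v, ‖v‖ = 1 → g (r * v) = g v) {v : ℂ}
    (hv : ‖v‖ = 1) : g v = g 1 := by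
  obtain ⟨α, rfl⟩ := exists_dir hr
  obtain ⟨β, rfl⟩ := exists_dir hv
  have hG : Continuous fun θ => g (dir θ) :=
    hg.comp_continuous continuous_dir fun θ => mem_sphere_zero_iff_norm.2 (norm_dir θ)
  let P : AddSubgroup ℝ :=
    { carrier := {t | ∀ s, g (dir (s + t)) = g (dir s)}
      zero_mem' := fun s => by rw [add_zero]
      add_mem' := fun {a b} ha hb s => by rw [← add_assoc, hb, ha]
      neg_mem' := fun {a} ha s => by
        have h := ha (s + -a)
        rw [neg_add_cancel_right] at h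
        exact h.symm }
  have hπ : (2 * Real.pi) ∈ P := fun s => by
    rw [dir_add, show dir (2 * Real.pi) = 1 by simp [dir, Complex.exp_two_pi_mul_I], mul_one]
  have hα : α ∈ P := fun s => by rw [dir_add, mul_comm, hinv _ (norm_dir s)]
  rcases P.dense_or_cyclic with hd | ⟨a, ha⟩
  · have hcl : IsClosed (P : Set ℝ) := by
      have e : (P : Set ℝ) = ⋂ s, {t | g (dir (s + t)) = g (dir s)} := by
        ext t; simp [P]
      rw [e]
      exact isClosed_iInter fun s =>
        isClosed_eq (hG.comp (continuous_const.add continuous_id)) continuous_const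
    have hβ : β ∈ (P : Set ℝ) := by rw [← hcl.closure_eq]; exact hd β
    have h := hβ 0
    rw [zero_add] at h
    rw [h]
    simp [dir]
  · rw [ha, AddSubgroup.mem_closure_singleton] at hπ hα
    obtain ⟨m, hm⟩ := hπ
    obtain ⟨l, hl⟩ := hα
    rw [zsmul_eq_mul] at hm hl
    have hm0 : m ≠ 0 := fun h => by simp [h, Real.pi_ne_zero] at hm
    have h1 : dir α ^ m = 1 := by
      rw [dir, ← Complex.exp_int_mul, ← hl]
      have e : (m : ℂ) * (((l : ℝ) * a : ℝ) * I) = (l : ℂ) * (((m : ℝ) * a : ℝ) * I) := by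
        push_cast; ring
      rw [e, hm, Complex.exp_eq_one_iff]
      exact ⟨l, by push_cast; ring⟩
    refine absurd ?_ (hirr m.natAbs (Int.natAbs_pos.2 hm0))
    rcases Int.natAbs_eq m with h | h <;> rw [h] at h1
    · rwa [zpow_natCast] at h1
    · rwa [zpow_neg, zpow_natCast, inv_eq_one] at h1

theorem side_add (n : ℂ) (c : ℝ) (p : ℂ) (s : ℝ) (w : ℂ) :
    side n c (p + s • w) = side n c p + s * ⟪n, w⟫ := by
  simp only [side, inner_add_right, inner_smul_right]
  ring

/-- The reflection as an isometry. -/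
def reflL (n : ℂ) (hn : ‖n‖ = 1) : ℂ ≃ₗᵢ[ℝ] ℂ :=
  Complex.conjLIE.trans (rotation ⟨-n ^ 2, mem_sphere_zero_iff_norm.2 (by simp [hn])⟩)

theorem reflL_apply (n : ℂ) (hn : ‖n‖ = 1) (v : ℂ) : reflL n hn v = refl n v := by
  show -n ^ 2 * conj v = -(n ^ 2 * conj v)
  ring

theorem refl_eq (n v : ℂ) (hn : ‖n‖ = 1) : refl n v = v - (2 * ⟪n, v⟫) • n := by
  have h : conj n * n = 1 := by rw [Complex.conj_mul', hn]; simp
  have hi : ((2 * ⟪n, v⟫ : ℝ) : ℂ) = conj n * v + n * conj v := by
    apply Complex.ext <;> simp [Complex.inner] <;> ring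
  rw [Complex.real_smul, hi, refl]
  linear_combination v * h

/-- The data of a polygon. -/
structure Table (ι : Type*) where
  /-- The inward unit normals. -/
  N : ι → ℂ
  /-- The offsets. -/
  c : ι → ℝ
  norm_N : ∀ i, ‖N i‖ = 1

variable {ι : Type*} (T : Table ι)

/-- The closed polygon. -/
def Table.K : Set ℂ := {p | ∀ i, 0 ≤ side (T.N i) (T.c i) p}

/-- The open polygon. -/
def Table.U : Set ℂ := {p | ∀ i, 0 < side (T.N i) (T.c i) p}

/-- The time at which the line through `o` with velocity `w` meets a side. -/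
def Table.time (i : ι) (o w : ℂ) : ℝ := -side (T.N i) (T.c i) o / ⟪T.N i, w⟫

/-- The line through `o` with velocity `w` leaves the polygon through the inside of side `i`. -/
def Table.Exit (i : ι) (o w : ℂ) : Prop :=
  ⟪T.N i, w⟫ < 0 ∧ ∀ j, j ≠ i → 0 < side (T.N j) (T.c j) (o + T.time i o w • w)

theorem Table.side_time (i : ι) (o : ℂ) {w : ℂ} (h : ⟪T.N i, w⟫ ≠ 0) :
    side (T.N i) (T.c i) (o + T.time i o w • w) = 0 := by
  rw [side_add, Table.time]; field_simp; ring

theorem Table.Exit.mem {i : ι} {o w : ℂ} (h : T.Exit i o w) :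
    o + T.time i o w • w ∈ T.K := fun j => by
  rcases eq_or_ne j i with rfl | hj
  · rw [T.side_time j o h.1.ne]
  · exact (h.2 j hj).le

theorem Table.Exit.unique {i j : ι} {o w : ℂ} (hi : T.Exit i o w) (hj : T.Exit j o w) :
    i = j := by
  by_contra hne
  have h1 := hi.2 j (Ne.symm hne)
  have h2 := hj.2 i hne
  have e1 := T.side_time i o hi.1.ne
  have e2 := T.side_time j o hj.1.ne
  rw [side_add] at h1 h2 e1 e2
  nlinarith [hi.1, hj.1, mul_neg_of_neg_of_pos hi.1 h1, mul_neg_of_neg_of_pos hj.1 h2]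

theorem Table.isOpen_exit [Finite ι] (i : ι) (o : ℂ) (L : ℂ ≃ₗᵢ[ℝ] ℂ) :
    IsOpen {θ | T.Exit i o (L (dir θ))} := by
  have hw : Continuous fun θ => L (dir θ) := L.continuous.comp continuous_dir
  refine isOpen_iff_mem_nhds.2 fun θ h => ?_
  have hs : Continuous fun θ => ⟪T.N i, L (dir θ)⟫ := continuous_const.inner hw
  have ht : ContinuousAt (fun θ => T.time i o (L (dir θ))) θ :=
    continuousAt_const.div hs.continuousAt h.1.ne
  refine (hs.continuousAt.eventually (gt_mem_nhds h.1)).and (eventually_all.2 fun j => ?_)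
  by_cases hj : j = i
  · exact Eventually.of_forall fun _ hji => absurd hj hji
  · have hc : ContinuousAt
        (fun θ => side (T.N j) (T.c j) (o + T.time i o (L (dir θ)) • L (dir θ))) θ :=
      (continuousAt_const.inner (continuousAt_const.add (ht.smul hw.continuousAt))).sub
        continuousAt_const
    exact (hc.eventually (lt_mem_nhds (h.2 j hj))).mono fun _ hz _ => hz

/-- A state of a beam: a virtual source, the linear part of the development and the elapsed
times. -/
structure Beam where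
  /-- The virtual source. -/
  o : ℂ
  /-- The linear part. -/
  L : ℂ ≃ₗᵢ[ℝ] ℂ
  /-- The elapsed time. -/
  t : ℝ → ℝ

/-- The beam really describes the orbits. -/
def Beam.Valid (f : ℂ × ℂ → ℝ) (x : ℂ) (J : Set ℝ) (B : Beam) : Prop :=
  ∀ θ ∈ J, 0 ≤ B.t θ ∧ B.o + B.t θ • B.L (dir θ) ∈ T.K ∧
    (∃ s, B.t θ < s ∧ B.o + s • B.L (dir θ) ∈ T.U) ∧
    f (x, dir θ) = f (B.o + B.t θ • B.L (dir θ), B.L (dir θ))

/-- One reflection of a beam. -/
def Beam.next (B : Beam) (i : ι) : Beam :=
  ⟨B.o - (2 * side (T.N i) (T.c i) B.o) • T.N i, B.L.trans (reflL (T.N i) (T.norm_N i)),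
    fun θ => T.time i B.o (B.L (dir θ))⟩

theorem Beam.next_L (B : Beam) (i : ι) (z : ℂ) :
    (B.next T i).L z = B.L z - (2 * ⟪T.N i, B.L z⟫) • T.N i := by
  show reflL (T.N i) (T.norm_N i) (B.L z) = _
  rw [reflL_apply, refl_eq _ _ (T.norm_N i)]

theorem Beam.next_point (B : Beam) (i : ι) (θ : ℝ) (h : ⟪T.N i, B.L (dir θ)⟫ ≠ 0) :
    (B.next T i).o + (B.next T i).t θ • (B.next T i).L (dir θ)
      = B.o + T.time i B.o (B.L (dir θ)) • B.L (dir θ) := by
  have h0 := T.side_time i B.o h
  rw [side_add] at h0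
  rw [Beam.next_L]
  simp only [Beam.next, smul_sub, smul_smul]
  match_scalars <;> linarith

theorem Beam.next_slope (B : Beam) (i : ι) (z : ℂ) :
    ⟪T.N i, (B.next T i).L z⟫ = -⟪T.N i, B.L z⟫ := by
  rw [Beam.next_L, inner_sub_right, inner_smul_right, real_inner_self_eq_norm_sq, T.norm_N]
  ring

/-- The corners. -/
def Table.corners (T : Table ι) : Set ℂ :=
  {p ∈ T.K | ∃ i j, i ≠ j ∧ side (T.N i) (T.c i) p = 0 ∧ side (T.N j) (T.c j) p = 0}

theorem Table.exists_negative (T : Table ι) (hK : IsCompact T.K) {q w : ℂ} (hq : q ∈ T.K)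
    (hw : ‖w‖ = 1) : ∃ i, ⟪T.N i, w⟫ < 0 := by
  by_contra hc
  push Not at hc
  obtain ⟨R, hR⟩ := hK.isBounded.subset_closedBall q
  have hm : q + (|R| + 1) • w ∈ T.K := fun i => by
    rw [side_add]
    exact add_nonneg (hq i) (mul_nonneg (by positivity) (hc i))
  have h := mem_closedBall.1 (hR hm)
  rw [dist_eq_norm, add_sub_cancel_left, norm_smul, hw, mul_one, Real.norm_eq_abs,
    abs_of_pos (by positivity)] at h
  linarith [le_abs_self R]

/-- A line from the inside leaves through a side, unless it leaves through a corner. -/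
theorem Table.exit_exists (T : Table ι) [Finite ι] (hK : IsCompact T.K) {o w : ℂ} {s : ℝ}
    (hw : ‖w‖ = 1) (hsU : o + s • w ∈ T.U)
    (hno : ∀ r, s < r → o + r • w ∈ T.K → o + r • w ∉ T.corners) :
    ∃ i, T.Exit i o w ∧ s < T.time i o w := by
  obtain ⟨i, hi, hmin⟩ := (Set.toFinite {i | ⟪T.N i, w⟫ < 0}).exists_minimalFor
    (fun i => T.time i o w) _ (T.exists_negative hK (fun i => (hsU i).le) hw)
  rw [mem_ofPred_eq] at hi
  have e1 := T.side_time i o hi.ne
  have hsi := hsU i
  rw [side_add] at e1 hsi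
  have hst : s < T.time i o w := by nlinarith
  have hge : ∀ j, 0 ≤ side (T.N j) (T.c j) (o + T.time i o w • w) := fun j => by
    have hj := hsU j
    rw [side_add] at hj ⊢
    rcases lt_or_ge ⟪T.N j, w⟫ 0 with h | h
    · have e2 := T.side_time j o h.ne
      rw [side_add] at e2
      rcases le_or_gt (T.time i o w) (T.time j o w) with h' | h'
      · nlinarith
      · exact absurd (hmin h h'.le) (not_le.2 h')
    · nlinarith
  refine ⟨i, ⟨hi, fun j hj => (hge j).lt_of_ne fun h0 => ?_⟩, hst⟩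
  exact hno _ hst hge ⟨hge, j, i, hj, h0.symm, T.side_time i o hi.ne⟩

/-- An orbit which never meets a corner lasts for ever. -/
theorem Table.orbit_unbounded (T : Table ι) [Finite ι] (o w : ℕ → ℂ)
    (t : ℕ → ℝ) (i : ℕ → ι) (hw : ∀ n, ‖w n‖ = 1) (hex : ∀ n, T.Exit (i n) (o n) (w n))
    (ht : ∀ n, t (n + 1) = T.time (i n) (o n) (w n)) (hmono : StrictMono t)
    (ho : ∀ n, o (n + 1) = o n - (2 * side (T.N (i n)) (T.c (i n)) (o n)) • T.N (i n))
    (hv : ∀ n, w (n + 1) = w n - (2 * ⟪T.N (i n), w n⟫) • T.N (i n)) :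
    ¬ BddAbove (range t) := by
  intro hbdd
  have hy0 : ∀ n, side (T.N (i n)) (T.c (i n)) (o n + t (n + 1) • w n) = 0 := fun n => by
    rw [ht n]; exact T.side_time _ _ (hex n).1.ne
  have hy : ∀ n, o n + t (n + 1) • w n = o (n + 1) + t (n + 1) • w (n + 1) := fun n => by
    have h := hy0 n
    rw [side_add] at h
    rw [ho n, hv n, smul_sub, smul_smul]
    match_scalars <;> linarith
  have hwn := hw
  have hlim := tendsto_atTop_ciSup hmono.monotone hbdd
  set S := ⨆ n, t n
  have hle : ∀ n, t n ≤ S := fun n => le_ciSup hbdd n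
  have hcauchy : CauchySeq fun n => o n + t (n + 1) • w n := by
    refine cauchySeq_of_dist_le_of_summable (fun n => t (n + 2) - t (n + 1)) (fun n => ?_)
      (summable_of_sum_range_le (c := S - t 1)
        (fun n => sub_nonneg.2 (hmono.monotone (show n + 1 ≤ n + 2 by omega))) fun n => ?_)
    · rw [dist_eq_norm, hy n, add_sub_add_left_eq_sub, ← sub_smul, norm_smul, hwn (n + 1), mul_one,
        Real.norm_eq_abs, abs_sub_comm,
        abs_of_nonneg (sub_nonneg.2 (hmono.monotone (show n + 1 ≤ n.succ + 1 by omega)))]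
    · rw [Finset.sum_range_sub (fun k => t (k + 1))]
      show t (n + 1) - t 1 ≤ S - t 1
      linarith [hle (n + 1)]
  obtain ⟨p, hp⟩ := cauchySeq_tendsto_of_complete hcauchy
  have hev : ∀ᶠ n in atTop, side (T.N (i n)) (T.c (i n)) p = 0 := by
    have hall : ∀ᶠ n in atTop, ∀ j, side (T.N j) (T.c j) p ≠ 0 →
        side (T.N j) (T.c j) (o n + t (n + 1) • w n) ≠ 0 := by
      refine eventually_all.2 fun j => ?_
      by_cases hj : side (T.N j) (T.c j) p = 0
      · exact Eventually.of_forall fun _ h => absurd hj h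
      · have hcs : Continuous fun z => side (T.N j) (T.c j) z := by unfold side; fun_prop
        exact ((hcs.tendsto p).comp hp).eventually_ne hj |>.mono fun _ h _ => h
    filter_upwards [hall] with n hn
    by_contra h
    exact hn _ h (hy0 n)
  obtain ⟨M, hM⟩ := eventually_atTop.1 hev
  set d : ℕ → ℝ := fun n => ‖o n + S • w n - p‖ with hddef
  have hd0 : Tendsto d atTop (𝓝 0) := by
    have h1 : Tendsto (fun n => ‖o n + t (n + 1) • w n - p‖ + (S - t (n + 1))) atTop (𝓝 0) := by
      have := (tendsto_iff_norm_sub_tendsto_zero.1 hp).add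
        ((tendsto_const_nhds (x := S)).sub (hlim.comp (tendsto_add_atTop_nat 1)))
      simpa using this
    refine squeeze_zero (fun n => norm_nonneg _) (fun n => ?_) h1
    calc d n = ‖(o n + t (n + 1) • w n - p) + (S - t (n + 1)) • w n‖ := by
          simp only [hddef, sub_smul]; congr 1; abel
      _ ≤ _ := (norm_add_le _ _).trans_eq (by rw [norm_smul, hwn, mul_one, Real.norm_eq_abs,
          abs_of_nonneg (sub_nonneg.2 (hle (n + 1)))])
  have hstep' : ∀ n, M ≤ n → d (n + 1) = d n := fun n hn => by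
    have hp0 := hM n hn
    simp only [hddef, ho n, hv n]
    rw [show o n - (2 * side (T.N (i n)) (T.c (i n)) (o n)) • T.N (i n)
        + S • (w n - (2 * ⟪T.N (i n), w n⟫) • T.N (i n)) - p
        = reflL (T.N (i n)) (T.norm_N _) (o n + S • w n - p) from ?_,
      LinearIsometryEquiv.norm_map]
    rw [reflL_apply, refl_eq _ _ (T.norm_N _), inner_sub_right, inner_add_right,
      inner_smul_right]
    simp only [side] at hp0
    simp only [side]
    rw [smul_sub, smul_smul]
    match_scalars <;> linarith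
  have hzero : d M = 0 := by
    refine tendsto_nhds_unique ((tendsto_const_nhds (x := d M)).congr' ?_) hd0
    filter_upwards [eventually_ge_atTop M] with n hn
    induction n, hn using Nat.le_induction with
    | base => rfl
    | succ k hk ih => rw [hstep' k hk, ih]
  have e : o M + S • w M = p := by simpa [hddef, sub_eq_zero] using hzero
  have h2 := hy0 M
  have h3 := hM M le_rfl
  rw [← e] at h3
  rw [side_add] at h2 h3
  have hs : ⟪T.N (i M), w M⟫ < 0 := (hex M).1
  have : S = t (M + 1) := by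
    refine (mul_right_cancel₀ hs.ne ?_)
    linarith
  linarith [hle (M + 2), hmono (show M + 1 < M + 2 by omega)]

variable [Finite ι] {T} {f : ℂ × ℂ → ℝ}

/-- The hypotheses on the polygon and on the first integral. -/
structure Integral (T : Table ι) (f : ℂ × ℂ → ℝ) : Prop where
  bounded : IsCompact T.K
  nonempty : T.U.Nonempty
  irrational : ∀ p ∈ T.K, ∀ i j, i ≠ j → side (T.N i) (T.c i) p = 0 →
    side (T.N j) (T.c j) p = 0 → ∀ k : ℕ, 0 < k → (T.N i ^ 2 * conj (T.N j ^ 2)) ^ k ≠ 1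
  cont : ContinuousOn f (T.K ×ˢ sphere 0 1)
  straight : ∀ p v, ∀ s : ℝ, p ∈ T.K → ‖v‖ = 1 → p + s • v ∈ T.K → f (p + s • v, v) = f (p, v)
  reflect : ∀ i p v, p ∈ T.K → side (T.N i) (T.c i) p = 0 → ‖v‖ = 1 →
    f (p, refl (T.N i) v) = f (p, v)

variable (H : Integral T f)
include H

omit [Finite ι] in
theorem Integral.corner_value {p : ℂ} (hp : p ∈ T.corners) {v : ℂ} (hv : ‖v‖ = 1) :
    f (p, v) = f (p, 1) := by
  obtain ⟨hpK, i, j, hij, hi, hj⟩ := hp
  refine circle_const (g := fun v => f (p, v)) (r := T.N i ^ 2 * conj (T.N j ^ 2)) ?_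
    (by simp [T.norm_N]) (H.irrational p hpK i j hij hi hj) (fun w hw => ?_) hv
  · exact H.cont.comp (continuous_const.prodMk continuous_id).continuousOn fun w hw => ⟨hpK, hw⟩
  · have e : refl (T.N i) (refl (T.N j) w) = T.N i ^ 2 * conj (T.N j ^ 2) * w := by
      simp [refl]; ring
    show f (p, _) = f (p, w)
    rw [← e, H.reflect i p _ hpK hi (by simp [refl, hw, T.norm_N]),
      H.reflect j p w hpK hj hw]

theorem Integral.finite_corners : T.corners.Finite := by
  have hsub : T.corners ⊆ ⋃ q : {q : ι × ι // q.1 ≠ q.2},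
      {p | p ∈ T.K ∧ side (T.N q.1.1) (T.c q.1.1) p = 0 ∧
        side (T.N q.1.2) (T.c q.1.2) p = 0} := by
    rintro p ⟨hp, i, j, hij, hi, hj⟩
    exact mem_iUnion.2 ⟨⟨(i, j), hij⟩, hp, hi, hj⟩
  refine (finite_iUnion fun q => Set.Subsingleton.finite ?_).subset hsub
  rintro p ⟨hp, hp1, hp2⟩ p' ⟨-, hp1', hp2'⟩
  by_contra hne
  have hd : p - p' ≠ 0 := sub_ne_zero.2 hne
  have perp : ∀ i, side (T.N i) (T.c i) p = 0 → side (T.N i) (T.c i) p' = 0 →
      refl (T.N i) (p - p') = p - p' := fun i a b => by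
    simp only [side] at a b
    rw [refl_eq _ _ (T.norm_N i), inner_sub_right,
      show ⟪T.N i, p⟫ - ⟪T.N i, p'⟫ = 0 by linarith, mul_zero, zero_smul, sub_zero]
  have e : T.N q.1.1 ^ 2 * conj (T.N q.1.2 ^ 2) * (p - p') = p - p' := by
    calc _ = refl (T.N q.1.1) (refl (T.N q.1.2) (p - p')) := by simp [refl]; ring
      _ = p - p' := by rw [perp _ hp2 hp2', perp _ hp1 hp1']
  exact H.irrational p hp _ _ q.2 hp1 hp2 1 one_pos (by
    rw [pow_one]; exact mul_right_cancel₀ hd (e.trans (one_mul _).symm))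

variable {x : ℂ} {J : Set ℝ} {B : Beam}

theorem Integral.exit_one (hB : B.Valid T f x J) {θ : ℝ} (hθ : θ ∈ J)
    (hno : ∀ p ∈ T.corners, f (x, dir θ) ≠ f (p, 1)) :
    ∃ i, T.Exit i B.o (B.L (dir θ)) ∧ B.t θ < T.time i B.o (B.L (dir θ)) := by
  obtain ⟨-, hK, ⟨s, hts, hsU⟩, hval⟩ := hB θ hθ
  have hw : ‖B.L (dir θ)‖ = 1 := by rw [B.L.norm_map, norm_dir]
  obtain ⟨i, hi, hst⟩ := T.exit_exists H.bounded hw hsU fun r hr hrK hc => by
    refine hno _ hc ?_
    rw [hval, ← H.straight _ _ (r - B.t θ) hK hw (by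
      rw [add_assoc, ← add_smul, add_sub_cancel]; exact hrK), add_assoc, ← add_smul,
      add_sub_cancel, H.corner_value hc hw]
  exact ⟨i, hi, hts.trans hst⟩

theorem Integral.exit_all (hB : B.Valid T f x J) (hJ : IsPreconnected J) (hne : J.Nonempty)
    (hno : ∀ θ ∈ J, ∀ p ∈ T.corners, f (x, dir θ) ≠ f (p, 1)) :
    ∃ i, ∀ θ ∈ J, T.Exit i B.o (B.L (dir θ)) ∧ B.t θ < T.time i B.o (B.L (dir θ)) := by
  obtain ⟨θ₀, h₀⟩ := hne
  obtain ⟨i, hi, -⟩ := H.exit_one hB h₀ (hno θ₀ h₀)
  refine ⟨i, fun θ hθ => ?_⟩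
  obtain ⟨k, hk, hkt⟩ := H.exit_one hB hθ (hno θ hθ)
  suffices hki : k = i by rw [← hki]; exact ⟨hk, hkt⟩
  have hsub : J ⊆ {θ | T.Exit i B.o (B.L (dir θ))} :=
    hJ.subset_left_of_subset_union (T.isOpen_exit i _ _)
      (isOpen_biUnion (s := {j | j ≠ i}) fun j _ => T.isOpen_exit j B.o B.L)
      (Set.disjoint_left.2 fun φ h1 h2 => by
        obtain ⟨j, hj, hj'⟩ := mem_iUnion₂.1 h2
        exact hj (hj'.unique T h1))
      (fun φ hφ => by
        obtain ⟨j, hj, -⟩ := H.exit_one hB hφ (hno φ hφ)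
        rcases eq_or_ne j i with rfl | hne
        · exact Or.inl hj
        · exact Or.inr (mem_iUnion₂.2 ⟨j, hne, hj⟩))
      ⟨θ₀, h₀, hi⟩
  exact hk.unique T (hsub hθ)

theorem Integral.valid_next (hB : B.Valid T f x J) {i : ι}
    (hi : ∀ θ ∈ J, T.Exit i B.o (B.L (dir θ)) ∧ B.t θ < T.time i B.o (B.L (dir θ))) :
    (B.next T i).Valid T f x J := by
  intro θ hθ
  obtain ⟨ht0, hK, -, hval⟩ := hB θ hθ
  obtain ⟨hex, htlt⟩ := hi θ hθ
  have hpt := B.next_point T i θ hex.1.ne
  have hmem := hex.mem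
  have hw : ‖B.L (dir θ)‖ = 1 := by rw [B.L.norm_map, norm_dir]
  refine ⟨ht0.trans htlt.le, by rw [hpt]; exact hmem, ?_, ?_⟩
  · set w' := (B.next T i).L (dir θ)
    set y := B.o + T.time i B.o (B.L (dir θ)) • B.L (dir θ)
    have hsl : 0 < ⟪T.N i, w'⟫ := by rw [B.next_slope T i]; linarith [hex.1]
    have hev : ∀ᶠ ε in 𝓝[>] (0 : ℝ), y + ε • w' ∈ T.U := by
      refine eventually_all.2 fun j => ?_
      rcases eq_or_ne j i with rfl | hj
      · filter_upwards [self_mem_nhdsWithin] with ε hε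
        rw [side_add, T.side_time j B.o hex.1.ne, zero_add]
        exact mul_pos hε hsl
      · have hc : Continuous fun ε : ℝ => side (T.N j) (T.c j) (y + ε • w') := by
          unfold side; fun_prop
        exact (hc.continuousAt.eventually (lt_mem_nhds (by
          show 0 < side (T.N j) (T.c j) (y + (0 : ℝ) • w')
          rw [zero_smul, add_zero]; exact hex.2 j hj))).filter_mono nhdsWithin_le_nhds
    obtain ⟨ε, hε0, hεU⟩ := ((eventually_mem_nhdsWithin).and hev).exists
    refine ⟨(B.next T i).t θ + ε, lt_add_of_pos_right _ hε0, ?_⟩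
    rw [add_smul, ← add_assoc, hpt]
    exact hεU
  · rw [hpt, hval, Beam.next]
    show _ = f (_, reflL (T.N i) (T.norm_N i) (B.L (dir θ)))
    rw [reflL_apply, H.reflect i _ _ hmem (T.side_time i B.o hex.1.ne) hw,
      ← H.straight _ _ (T.time i B.o (B.L (dir θ)) - B.t θ) hK hw (by
        rw [add_assoc, ← add_smul, add_sub_cancel]; exact hmem),
      add_assoc, ← add_smul, add_sub_cancel]

/-- A beam of directions from an inner point meets a corner value. -/
theorem Integral.hits (hx : x ∈ T.U) {a b : ℝ} (hab : a < b) :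
    ∃ θ ∈ Ioo a b, ∃ p ∈ T.corners, f (x, dir θ) = f (p, 1) := by
  by_contra hc
  push Not at hc
  obtain ⟨θ, θ', hθ, hθ', hcr⟩ : ∃ θ θ', θ ∈ Ioo a b ∧ θ' ∈ Ioo a b ∧
      (conj (dir θ') * dir θ).im ≠ 0 := by
    obtain ⟨δ, hδ, hδ1, hδ2⟩ : ∃ δ > (0 : ℝ), δ < b - a ∧ δ < Real.pi :=
      ⟨min (b - a) Real.pi / 2, by have := Real.pi_pos; positivity,
        by linarith [min_le_left (b - a) Real.pi, lt_min (sub_pos.2 hab) Real.pi_pos],
        by linarith [min_le_right (b - a) Real.pi, Real.pi_pos]⟩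
    refine ⟨(a + b + δ) / 2, (a + b - δ) / 2, ⟨by linarith, by linarith⟩,
      ⟨by linarith, by linarith⟩, ?_⟩
    have e : conj (dir ((a + b - δ) / 2)) * dir ((a + b + δ) / 2) = dir δ := by
      simp only [dir, ← Complex.exp_conj, ← Complex.exp_add, map_mul, conj_ofReal, conj_I]
      congr 1
      push_cast
      ring
    rw [e, dir, Complex.exp_ofReal_mul_I_im]
    exact (Real.sin_pos_of_pos_of_lt_pi hδ hδ2).ne'
  have h0 : (⟨x, LinearIsometryEquiv.refl ℝ ℂ, fun _ => 0⟩ : Beam).Valid T f x (Ioo a b) := by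
    intro φ hφ
    refine ⟨le_rfl, by rw [zero_smul, add_zero]; exact fun i => (hx i).le, ?_, by simp⟩
    have hU : IsOpen T.U := by
      rw [Table.U, ofPred_forall]
      exact isOpen_iInter_of_finite fun i =>
        isOpen_lt continuous_const (by unfold side; fun_prop)
    have hcn : Continuous fun s : ℝ => x + s • dir φ := by fun_prop
    obtain ⟨s, hs, hsU⟩ := ((eventually_mem_nhdsWithin).and
      ((hcn.continuousAt.eventually (hU.mem_nhds (show x + (0 : ℝ) • dir φ ∈ T.U by rw [zero_smul, add_zero]; exact hx))).filter_mono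
        (nhdsWithin_le_nhds (s := Ioi (0 : ℝ))))).exists
    exact ⟨s, hs, hsU⟩
  have hstep : ∀ B : {B : Beam // B.Valid T f x (Ioo a b)}, ∃ i : ι, ∀ φ ∈ Ioo a b,
      T.Exit i B.1.o (B.1.L (dir φ)) ∧ B.1.t φ < T.time i B.1.o (B.1.L (dir φ)) := fun B =>
    H.exit_all B.2 isPreconnected_Ioo (nonempty_Ioo.2 hab) hc
  choose side' hside using hstep
  let seq : ℕ → {B : Beam // B.Valid T f x (Ioo a b)} := fun n =>
    Nat.rec ⟨_, h0⟩ (fun _ B => ⟨B.1.next T (side' B), H.valid_next B.2 (hside B)⟩) n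
  obtain ⟨i, hi⟩ : ∃ i : ℕ → ι, ∀ n, side' (seq n) = i n := ⟨_, fun _ => rfl⟩
  have hseq : ∀ n, (seq (n + 1)).1 = (seq n).1.next T (i n) := fun n => by rw [← hi]
  have hex : ∀ n, ∀ φ ∈ Ioo a b, T.Exit (i n) (seq n).1.o ((seq n).1.L (dir φ)) ∧
      (seq n).1.t φ < (seq (n + 1)).1.t φ := fun n φ hφ => by
    rw [hseq, ← hi]; exact hside (seq n) φ hφ
  set t : ℕ → ℝ := fun n => (seq n).1.t θ with htdef
  set w : ℕ → ℂ := fun n => (seq n).1.L (dir θ) with hwdef
  set o : ℕ → ℂ := fun n => (seq n).1.o with hodef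
  have hmono : StrictMono t := strictMono_nat_of_lt_succ fun n => (hex n θ hθ).2
  have ht0 : ∀ n, 0 ≤ t n := fun n => ((seq n).2 θ hθ).1
  have hyK : ∀ n, o n + t (n + 1) • w n ∈ T.K := fun n => by
    simp only [htdef, hwdef, hodef, hseq n]
    exact (hex n θ hθ).1.mem
  have hwn : ∀ n, ‖w n‖ = 1 := fun n => by
    simp only [hwdef, LinearIsometryEquiv.norm_map, norm_dir]
  obtain ⟨D, hD⟩ := Metric.isBounded_iff.1 H.bounded.isBounded
  have hbound : ∀ n, t (n + 1) ≤ D / |(conj (dir θ') * dir θ).im| := fun n => by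
    rw [le_div_iff₀ (abs_pos.2 hcr)]
    have hd := hD (hyK n) (show o n + (seq (n + 1)).1.t θ' • (seq n).1.L (dir θ') ∈ T.K by
      rw [hseq n]; exact (hex n θ' hθ').1.mem)
    rw [dist_eq_norm, add_sub_add_left_eq_sub, hwdef] at hd
    simp only [← LinearIsometryEquiv.map_smul, ← map_sub, LinearIsometryEquiv.norm_map] at hd
    refine le_trans ?_ hd
    have key : (conj (dir θ') * (t (n + 1) • dir θ - (seq (n + 1)).1.t θ' • dir θ')).im
        = t (n + 1) * (conj (dir θ') * dir θ).im := by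
      have hu : conj (dir θ') * dir θ' = 1 := by rw [Complex.conj_mul', norm_dir]; simp
      rw [mul_sub, mul_smul_comm, mul_smul_comm, hu]
      simp [Complex.real_smul]
    calc t (n + 1) * |(conj (dir θ') * dir θ).im|
        = |(conj (dir θ') * (t (n + 1) • dir θ - (seq (n + 1)).1.t θ' • dir θ')).im| := by
          rw [key, abs_mul, abs_of_nonneg (ht0 (n + 1))]
      _ ≤ _ := (Complex.abs_im_le_norm _).trans (by rw [norm_mul, Complex.norm_conj, norm_dir,
          one_mul])
  have hbdd : BddAbove (range t) := ⟨D / |(conj (dir θ') * dir θ).im|, by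
    rintro _ ⟨n, rfl⟩; exact (hmono.monotone n.le_succ).trans (hbound n)⟩
  exact T.orbit_unbounded o w t i hwn (fun n => (hex n θ hθ).1)
    (fun n => by simp only [htdef, hwdef, hodef, hseq n]; rfl) hmono
    (fun n => by simp only [hodef, hseq n]; rfl)
    (fun n => by simp only [hwdef, hseq n]; exact (seq n).1.next_L T (i n) _) hbdd

theorem Integral.mem_values {v : ℂ} {x : ℂ} (hx : x ∈ T.U) (hv : ‖v‖ = 1) :
    f (x, v) ∈ (fun p => f (p, 1)) '' T.corners := by
  obtain ⟨θ, rfl⟩ := exists_dir hv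
  rw [← (H.finite_corners.image _).isClosed.closure_eq]
  have hc : Continuous fun φ => f (x, dir φ) :=
    H.cont.comp_continuous (continuous_const.prodMk continuous_dir)
      fun φ => ⟨fun i => (hx i).le, mem_sphere_zero_iff_norm.2 (norm_dir φ)⟩
  refine mem_closure_iff_nhds.2 fun u hu => ?_
  obtain ⟨a, b, ⟨ha, hb⟩, hsub⟩ := mem_nhds_iff_exists_Ioo_subset.1
    (hc.continuousAt.preimage_mem_nhds hu)
  obtain ⟨φ, hφ, p, hp, he⟩ := H.hits hx (ha.trans hb)
  exact ⟨_, hsub hφ, p, hp, he.symm⟩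

/-- Continuous first integrals are constant. -/
theorem integral_const : ∃ c₀, ∀ p ∈ T.K, ∀ v, ‖v‖ = 1 → f (p, v) = c₀ := by
  obtain ⟨q, hq⟩ := H.nonempty
  refine ⟨f (q, 1), fun p hp v hv => ?_⟩
  have hconv : Convex ℝ T.U := fun a ha b hb s t hs ht hst i => by
    show 0 < ⟪T.N i, s • a + t • b⟫ - T.c i
    have h1 : 0 < ⟪T.N i, a⟫ - T.c i := ha i
    have h2 : 0 < ⟪T.N i, b⟫ - T.c i := hb i
    rw [inner_add_right, inner_smul_right, inner_smul_right]
    rcases hs.eq_or_lt with rfl | hs'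
    · rw [zero_add] at hst; subst hst; linarith
    · obtain rfl : t = 1 - s := by linarith
      nlinarith [mul_pos hs' h1, mul_nonneg ht h2.le]
  have hsph : IsPreconnected (sphere (0 : ℂ) 1) :=
    isPreconnected_sphere (by rw [Complex.rank_real_complex]; norm_num) 0 1
  have hUK : T.U ⊆ T.K := fun z hz i => (hz i).le
  have hconst : ∀ z ∈ T.U, ∀ u, ‖u‖ = 1 → f (z, u) = f (q, 1) := fun z hz u hu =>
    (hconv.isPreconnected.prod hsph).constant_of_mapsTo (S := T.U ×ˢ sphere (0 : ℂ) 1)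
      (T := (fun p => f (p, 1)) '' T.corners) (H.finite_corners.image _).isDiscrete
      (H.cont.mono (prod_mono hUK le_rfl))
      (fun y hy => H.mem_values hy.1 (mem_sphere_zero_iff_norm.1 hy.2))
      ⟨hz, mem_sphere_zero_iff_norm.2 hu⟩ ⟨hq, by simp⟩
  have hc : ContinuousWithinAt (fun s : ℝ => f (p + s • (q - p), v)) (Icc 0 1) 0 := by
    refine (H.cont.comp (f := fun s : ℝ => (p + s • (q - p), v)) (by fun_prop) fun s hs => ?_) 0
      (left_mem_Icc.2 zero_le_one)
    refine ⟨fun i => ?_, mem_sphere_zero_iff_norm.2 hv⟩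
    rw [side_add]
    have h1 := hp i
    have h2 := (hq i).le
    rw [show q = p + (1 : ℝ) • (q - p) by simp, side_add] at h2
    nlinarith [hs.1, hs.2, mul_nonneg hs.1 h2, mul_nonneg (sub_nonneg.2 hs.2) h1]
  have ht : Tendsto (fun s : ℝ => f (p + s • (q - p), v)) (𝓝[>] 0) (𝓝 (f (p, v))) := by
    have := (hc.mono (Ioo_subset_Icc_self)).tendsto
    rw [nhdsWithin_Ioo_eq_nhdsGT zero_lt_one] at this
    simpa using this
  refine tendsto_nhds_unique ht ((tendsto_const_nhds (x := f (q, 1))).congr' ?_)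
  filter_upwards [Ioo_mem_nhdsGT zero_lt_one] with s hs
  refine (hconst _ (fun i => ?_) v hv).symm
  rw [side_add]
  have h1 := hp i
  have h2 := hq i
  rw [show q = p + (1 : ℝ) • (q - p) by simp, side_add] at h2
  nlinarith [mul_pos hs.1 h2, mul_nonneg (sub_nonneg.2 hs.2.le) h1]

end

end Vale.Agent.P099
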