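import Vale.Agent.P099.Triangle

/-!
# P099: irrational right triangles, through the rhombus made of four copies
-/

namespace Vale.Agent.P099

open Set Filter Metric Function Complex
open scoped Topology ComplexConjugate RealInnerProductSpace

noncomputable section

/-- The sign of a Boolean. -/
def sgn (e : Bool) : ℝ := if e then 1 else -1

theorem sgn_sq (e : Bool) : sgn e * sgn e = 1 := by cases e <;> simp [sgn]

/-- The change of signs of the two coordinates. -/
def fold (e : Bool × Bool) (z : ℂ) : ℂ := ⟨sgn e.1 * z.re, sgn e.2 * z.im⟩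

theorem fold_re (e : Bool × Bool) (z : ℂ) : (fold e z).re = sgn e.1 * z.re := rfl

theorem fold_im (e : Bool × Bool) (z : ℂ) : (fold e z).im = sgn e.2 * z.im := rfl

theorem fold_add (e : Bool × Bool) (z w : ℂ) : fold e (z + w) = fold e z + fold e w := by
  apply Complex.ext <;> simp [fold_re, fold_im, mul_add]

theorem fold_smul (e : Bool × Bool) (s : ℝ) (z : ℂ) : fold e (s • z) = s • fold e z := by
  apply Complex.ext <;> simp [fold_re, fold_im] <;> ring

theorem norm_fold (e : Bool × Bool) (z : ℂ) : ‖fold e z‖ = ‖z‖ := by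
  rw [← sq_eq_sq₀ (norm_nonneg _) (norm_nonneg _), ← Complex.normSq_eq_norm_sq,
    ← Complex.normSq_eq_norm_sq, normSq_apply, normSq_apply, fold_re, fold_im]
  linear_combination z.re ^ 2 * sgn_sq e.1 + z.im ^ 2 * sgn_sq e.2

theorem fold_fold (e : Bool × Bool) (z : ℂ) : fold e (fold e z) = z := by
  apply Complex.ext <;> simp [fold_re, fold_im, ← mul_assoc, sgn_sq]

theorem inner_fold (e : Bool × Bool) (z w : ℂ) : ⟪fold e z, fold e w⟫ = ⟪z, w⟫ := by
  simp only [Complex.inner, mul_re, conj_re, conj_im, fold_re, fold_im]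
  linear_combination z.re * w.re * sgn_sq e.1 + z.im * w.im * sgn_sq e.2

theorem fold_refl (e : Bool × Bool) {n : ℂ} (hn : ‖n‖ = 1) (v : ℂ) :
    fold e (refl (fold e n) v) = refl n (fold e v) := by
  have h : ⟪n, fold e v⟫ = ⟪fold e n, v⟫ := by
    conv_rhs => rw [← fold_fold e v]
    rw [inner_fold]
  rw [refl_eq _ _ hn, refl_eq _ _ (by rw [norm_fold, hn]), h, sub_eq_add_neg, fold_add,
    ← neg_smul, fold_smul, fold_fold, neg_smul, ← sub_eq_add_neg]

theorem continuous_fold (e : Bool × Bool) : Continuous (fold e) := by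
  have e' : fold e = fun z : ℂ => ((sgn e.1 * z.re : ℝ) : ℂ) + ((sgn e.2 * z.im : ℝ) : ℂ) * I := by
    funext z; apply Complex.ext <;> simp [fold]
  rw [e']
  fun_prop

/-- The closed quadrant of a sign pattern. -/
def quad (e : Bool × Bool) : Set ℂ := {p | 0 ≤ sgn e.1 * p.re ∧ 0 ≤ sgn e.2 * p.im}

/-- The sign pattern of a point. -/
def pattern (p : ℂ) : Bool × Bool := (decide (0 ≤ p.re), decide (0 ≤ p.im))

theorem mem_quad_pattern (p : ℂ) : p ∈ quad (pattern p) := by
  constructor
  · by_cases h : 0 ≤ p.re
    · simp [pattern, sgn, h]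
    · simp [pattern, sgn, h]; linarith
  · by_cases h : 0 ≤ p.im
    · simp [pattern, sgn, h]
    · simp [pattern, sgn, h]; linarith

/-- The unfolded eigenfunction on the rhombus. -/
def unfold4 (f : ℂ × ℂ → ℂ) (q : ℂ × ℂ) : ℂ := f (fold (pattern q.1) q.1, fold (pattern q.1) q.2)

variable {a b : ℝ}

/-- The inward normal of the hypotenuse. -/
def hypNormal (a b : ℝ) : ℂ := normal ((b : ℂ) * I - (a : ℂ))

/-- The rhombus as a table. -/
def rhombus (ha : 0 < a) : Table (Bool × Bool) where
  N := fun e => fold e (hypNormal a b)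
  c := fun _ => ⟪hypNormal a b, (a : ℂ)⟫
  norm_N := fun e => by
    rw [norm_fold]
    refine norm_normal fun h => ?_
    have := congrArg Complex.re h
    simp at this
    linarith

theorem side_rhombus (ha : 0 < a) (e : Bool × Bool) (p : ℂ) :
    side ((rhombus (b := b) ha).N e) ((rhombus (b := b) ha).c e) p
      = ‖(b : ℂ) * I - (a : ℂ)‖⁻¹ * (a * b - sgn e.1 * b * p.re - sgn e.2 * a * p.im) := by
  show ⟪fold e (hypNormal a b), p⟫ - ⟪hypNormal a b, (a : ℂ)⟫ = _
  conv_lhs => rw [← fold_fold e p, inner_fold]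
  rw [hypNormal, inner_normal, inner_normal]
  simp [crossProd, fold_re, fold_im]
  ring

theorem const_of_right (ha : 0 < a) (hb : 0 < b) (hirr : IrrationalAngle (a : ℂ) ((b : ℂ) * I) 0)
    {lam : ℝ} {f : ℂ × ℂ → ℂ} (hf : ContinuousEigenfunction 0 (a : ℂ) ((b : ℂ) * I) lam f) :
    ∃ c₀, (∀ p ∈ convexHull ℝ {0, (a : ℂ), (b : ℂ) * I}, ∀ v : ℂ, ‖v‖ = 1 → f (p, v) = c₀) ∧
      (lam = 0 ∨ c₀ = 0) := by
  obtain ⟨hcont, hstr, href⟩ := hf
  set T := rhombus (b := b) ha with hT
  set u : ℂ := (b : ℂ) * I - (a : ℂ) with hu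
  have hu0 : u ≠ 0 := fun h => by
    have := congrArg Complex.re h
    simp [hu] at this
    linarith
  have hL : 0 < ‖u‖⁻¹ := by positivity
  have hmem : ∀ p : ℂ, p ∈ T.K ↔
      ∀ e : Bool × Bool, 0 ≤ a * b - sgn e.1 * b * p.re - sgn e.2 * a * p.im := fun p => by
    simp only [Table.K, mem_ofPred_eq, hT, side_rhombus, ← hu, mul_nonneg_iff_of_pos_left hL]
  have htri : ∀ q : ℂ, 0 ≤ q.re → 0 ≤ q.im → b * q.re + a * q.im ≤ a * b →
      q ∈ convexHull ℝ {0, (a : ℂ), (b : ℂ) * I} := fun q h1 h2 h3 => by
    have := (convex_convexHull ℝ ({0, (a : ℂ), (b : ℂ) * I} : Set ℂ)).sum_mem (t := Finset.univ)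
      (w := ![1 - q.re / a - q.im / b, q.re / a, q.im / b]) (z := ![0, (a : ℂ), (b : ℂ) * I])
      (fun i _ => by
        fin_cases i
        · show 0 ≤ 1 - q.re / a - q.im / b
          rw [sub_sub, sub_nonneg, div_add_div _ _ ha.ne' hb.ne', div_le_one (by positivity)]
          linarith
        · exact div_nonneg h1 ha.le
        · exact div_nonneg h2 hb.le)
      (by simp [Fin.sum_univ_three]; ring)
      (fun i _ => subset_convexHull ℝ _ (by fin_cases i <;> simp))
    convert this using 1
    apply Complex.ext <;> simp [Fin.sum_univ_three] <;> field_simp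
  have hfold : ∀ p ∈ T.K, ∀ e, p ∈ quad e → fold e p ∈ convexHull ℝ {0, (a : ℂ), (b : ℂ) * I} := by
    intro p hp e he
    have := (hmem p).1 hp e
    exact htri _ he.1 he.2 (by rw [fold_re, fold_im]; linarith)
  have hsegA : ∀ q : ℂ, q.re = 0 → 0 ≤ q.im → q.im ≤ b → q ∈ segment ℝ ((b : ℂ) * I) 0 :=
    fun q h1 h2 h3 => ⟨q.im / b, 1 - q.im / b, by positivity,
      sub_nonneg.2 ((div_le_one hb).2 h3), by ring,
      by apply Complex.ext <;> simp [h1] <;> field_simp⟩
  have hsegB : ∀ q : ℂ, q.im = 0 → 0 ≤ q.re → q.re ≤ a → q ∈ segment ℝ 0 (a : ℂ) :=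
    fun q h1 h2 h3 => ⟨1 - q.re / a, q.re / a, sub_nonneg.2 ((div_le_one ha).2 h3),
      by positivity, by ring, by apply Complex.ext <;> simp [h1] <;> field_simp⟩
  have hflipA : ∀ q w : ℂ, q.re = 0 → 0 ≤ q.im → q.im ≤ b → ‖w‖ = 1 →
      f (q, fold (false, true) w) = f (q, w) := fun q w h1 h2 h3 hw => by
    have h := (href q w hw).2.2 (hsegA q h1 h2 h3)
    convert h using 3
    apply Complex.ext <;> simp [mirror, fold_re, fold_im, sgn, hb.ne']
  have hflipB : ∀ q w : ℂ, q.im = 0 → 0 ≤ q.re → q.re ≤ a → ‖w‖ = 1 →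
      f (q, fold (true, false) w) = f (q, w) := fun q w h1 h2 h3 hw => by
    have h := (href q w hw).1 (hsegB q h1 h2 h3)
    convert h using 3
    apply Complex.ext <;> simp [mirror, fold_re, fold_im, sgn, ha.ne']
  have hwd : ∀ e p v, p ∈ T.K → p ∈ quad e → ‖v‖ = 1 →
      unfold4 f (p, v) = f (fold e p, fold e v) := by
    intro e p v hp he hv
    have h1 : ∀ e₁ e₁' e₂ : Bool, p ∈ quad (e₁, e₂) → p ∈ quad (e₁', e₂) →
        f (fold (e₁, e₂) p, fold (e₁, e₂) v) = f (fold (e₁', e₂) p, fold (e₁', e₂) v) := by
      intro e₁ e₁' e₂ q1 q2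
      rcases Bool.eq_or_eq_not e₁ e₁' with rfl | rfl
      · rfl
      have hre : p.re = 0 := by
        have a1 := q1.1
        have a2 := q2.1
        cases e₁' <;> simp [sgn] at a1 a2 <;> linarith
      have e0 : fold (!e₁', e₂) p = fold (e₁', e₂) p := by
        apply Complex.ext <;> simp [fold_re, fold_im, hre]
      have ev : fold (!e₁', e₂) v = fold (false, true) (fold (e₁', e₂) v) := by
        apply Complex.ext <;> cases e₁' <;> simp [fold_re, fold_im, sgn]
      have hb' := (hmem p).1 hp (e₁', e₂)
      rw [e0, ev]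
      refine hflipA _ _ (by simp [fold_re, hre]) q2.2 ?_ (by rw [norm_fold, hv])
      rw [fold_im]
      simp only [hre, mul_zero, sub_zero] at hb'
      exact le_of_mul_le_mul_left (by linarith) ha
    have h2 : ∀ e₁ e₂ e₂' : Bool, p ∈ quad (e₁, e₂) → p ∈ quad (e₁, e₂') →
        f (fold (e₁, e₂) p, fold (e₁, e₂) v) = f (fold (e₁, e₂') p, fold (e₁, e₂') v) := by
      intro e₁ e₂ e₂' q1 q2
      rcases Bool.eq_or_eq_not e₂ e₂' with rfl | rfl
      · rfl
      have him : p.im = 0 := by
        have a1 := q1.2
        have a2 := q2.2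
        cases e₂' <;> simp [sgn] at a1 a2 <;> linarith
      have e0 : fold (e₁, !e₂') p = fold (e₁, e₂') p := by
        apply Complex.ext <;> simp [fold_re, fold_im, him]
      have ev : fold (e₁, !e₂') v = fold (true, false) (fold (e₁, e₂') v) := by
        apply Complex.ext <;> cases e₂' <;> simp [fold_re, fold_im, sgn]
      have hb' := (hmem p).1 hp (e₁, e₂')
      rw [e0, ev]
      refine hflipB _ _ (by simp [fold_im, him]) q2.1 ?_ (by rw [norm_fold, hv])
      rw [fold_re]
      simp only [him, mul_zero, sub_zero] at hb'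
      exact le_of_mul_le_mul_left (by linarith) hb
    obtain ⟨e₁, e₂⟩ := e
    obtain ⟨m1, m2⟩ := mem_quad_pattern p
    exact (h1 (pattern p).1 e₁ (pattern p).2 ⟨m1, m2⟩ ⟨he.1, m2⟩).trans
      (h2 e₁ (pattern p).2 e₂ ⟨he.1, m2⟩ he)
  have hbox : ∀ p ∈ T.K, |p.re| ≤ a ∧ |p.im| ≤ b := fun p hp => by
    have h1 := (hmem p).1 hp (true, true)
    have h2 := (hmem p).1 hp (true, false)
    have h3 := (hmem p).1 hp (false, true)
    have h4 := (hmem p).1 hp (false, false)
    simp [sgn] at h1 h2 h3 h4
    exact ⟨abs_le.2 ⟨by nlinarith, by nlinarith⟩, abs_le.2 ⟨by nlinarith, by nlinarith⟩⟩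
  have hclosed : IsClosed T.K := by
    rw [Table.K, ofPred_forall]
    exact isClosed_iInter fun i => isClosed_le continuous_const (by unfold side; fun_prop)
  have hq : ∀ e, IsClosed (quad e) := fun e => by
    rw [quad, ofPred_and]
    exact (isClosed_le continuous_const (by fun_prop)).inter
      (isClosed_le continuous_const (by fun_prop))
  have H : Wave T (unfold4 f) lam :=
    { bounded := Metric.isCompact_of_isClosed_isBounded hclosed
        (Metric.isBounded_iff_subset_closedBall (0 : ℂ) |>.2 ⟨a + b, fun p hp => by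
          rw [mem_closedBall_zero_iff]
          exact (Complex.norm_le_abs_re_add_abs_im p).trans (add_le_add (hbox p hp).1 (hbox p hp).2)⟩)
      nonempty := ⟨0, fun e => by
        rw [hT, side_rhombus]
        simp only [zero_re, zero_im, mul_zero, sub_zero]
        positivity⟩
      irrational := fun p _ i j hij hi hj k hk => by
        set g := fold (true, false) (hypNormal a b) with hg
        set w : ℂ := (a : ℂ) + (b : ℂ) * I
        have hw : w ≠ 0 := fun h => by
          have := congrArg Complex.re h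
          simp [w] at this
          linarith
        have hgw : g = normal w := by
          have : ‖w‖ = ‖u‖ := by
            rw [← sq_eq_sq₀ (norm_nonneg _) (norm_nonneg _), ← Complex.normSq_eq_norm_sq,
              ← Complex.normSq_eq_norm_sq]
            simp [normSq_apply, w, hu]
          simp only [hg, hypNormal, ← hu, normal, this]
          apply Complex.ext <;> simp [fold_re, fold_im, sgn, w, hu]
        have key : (hypNormal a b ^ 2 * conj (g ^ 2)) ^ k ≠ 1 ∧
            (g ^ 2 * conj (hypNormal a b ^ 2)) ^ k ≠ 1 := by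
          rw [hgw, hypNormal, ← hu]
          set q : ℂ := (0 - (a : ℂ)) / ((b : ℂ) * I - (a : ℂ)) with hq'
          have hqk : ((q ^ 2) ^ k).im ≠ 0 := by
            rw [← pow_mul]; exact hirr (2 * k) (by omega)
          refine ratio_ne_one (t := -(‖u‖ ^ 2 * ‖u‖ ^ 2) / a ^ 2) (q := q ^ 2) hu0 hw ?_ ?_ hqk
          · simp [hu0, ha.ne']
          · have hc : conj u = -w := by
              apply Complex.ext <;> simp [hu, w] 
            have hn : ((‖u‖ : ℝ) : ℂ) ^ 2 = -w * u := by rw [← Complex.conj_mul', hc]
            have ha' : (a : ℂ) ≠ 0 := ofReal_ne_zero.2 ha.ne'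
            rw [hq', ← hu, hc]
            push_cast
            rw [hn]
            field_simp
            ring
        have hsq : ∀ e : Bool × Bool,
            T.N e ^ 2 = if e.1 = e.2 then hypNormal a b ^ 2 else g ^ 2 := fun e => by
          have e1 : T.N e = fold e (hypNormal a b) := rfl
          rw [e1]
          rcases e with ⟨_ | _, _ | _⟩ <;> simp only [Bool.false_eq_true, Bool.true_eq_false,
            if_true, if_false, hg]
          · rw [← neg_sq]; congr 1; apply Complex.ext <;> simp [fold_re, fold_im, sgn]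
          · rw [← neg_sq]; congr 1; apply Complex.ext <;> simp [fold_re, fold_im, sgn]
          · congr 1; apply Complex.ext <;> simp [fold_re, fold_im, sgn]
        have hsum : ¬(j.1 = !i.1 ∧ j.2 = !i.2) := fun ⟨h1, h2⟩ => by
          rw [hT, side_rhombus, mul_eq_zero, or_iff_right hL.ne'] at hi hj
          rw [h1, h2] at hj
          have h3 : ∀ c : Bool, sgn (!c) = -sgn c := fun c => by cases c <;> simp [sgn]
          rw [h3, h3] at hj
          nlinarith [mul_pos ha hb]
        rw [hsq i, hsq j]
        rcases i with ⟨_ | _, _ | _⟩ <;> rcases j with ⟨_ | _, _ | _⟩ <;>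
          simp only [Bool.false_eq_true, Bool.true_eq_false, if_true, if_false] <;>
          first
          | exact absurd rfl hij
          | exact absurd ⟨rfl, rfl⟩ hsum
          | exact key.1
          | exact key.2
      cont := by
        have hpc : ∀ e, ContinuousOn (unfold4 f) ((T.K ∩ quad e) ×ˢ sphere 0 1) := fun e => by
          refine (hcont.comp ((continuous_fold e).prodMap (continuous_fold e)).continuousOn
            fun q hq => ⟨hfold q.1 hq.1.1 e hq.1.2, by
              rw [mem_sphere_zero_iff_norm]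
              exact (norm_fold _ _).trans (mem_sphere_zero_iff_norm.1 hq.2)⟩).congr fun q hq => ?_
          exact hwd e q.1 q.2 hq.1.1 hq.1.2 (mem_sphere_zero_iff_norm.1 hq.2)
        refine ((locallyFinite_of_finite fun e => (T.K ∩ quad e) ×ˢ sphere (0 : ℂ) 1).continuousOn_iUnion
          (fun e => (hclosed.inter (hq e)).prod isClosed_sphere) hpc).mono fun q hq' => ?_
        exact mem_iUnion.2 ⟨pattern q.1, ⟨hq'.1, mem_quad_pattern _⟩, hq'.2⟩
      straight := fun p v s hp hv hs => by
        classical
        set I' : Set ℝ := {t | p + t • v ∈ T.K} with hI'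
        have hconv : Convex ℝ I' := fun t ht t' ht' c d hc hd hcd e => by
          have h1 := ht e
          have h2 := ht' e
          rw [side_add] at h1 h2 ⊢
          obtain rfl : d = 1 - c := by linarith
          simp only [smul_eq_mul]
          nlinarith [mul_nonneg hc h1, mul_nonneg hd h2]
        have hg₀ : ContinuousOn (fun t => unfold4 f (p + t • v, v)) I' := by
          have hpc : ∀ e, ContinuousOn (fun t => unfold4 f (p + t • v, v))
              (I' ∩ {t | p + t • v ∈ quad e}) := fun e => by
            refine (hcont.comp (f := fun t : ℝ => (fold e (p + t • v), fold e v))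
              (((continuous_fold e).comp (by fun_prop)).prodMk continuous_const).continuousOn
              fun t ht => ⟨hfold _ ht.1 e ht.2, by
                rw [mem_sphere_zero_iff_norm, norm_fold, hv]⟩).congr fun t ht => ?_
            exact hwd e _ v ht.1 ht.2 hv
          refine ((locallyFinite_of_finite
            fun e => I' ∩ {t | p + t • v ∈ quad e}).continuousOn_iUnion (fun e => ?_) hpc).mono
              fun t ht => mem_iUnion.2 ⟨pattern (p + t • v), ht, mem_quad_pattern _⟩
          exact (hclosed.preimage (by fun_prop)).inter ((hq e).preimage (by fun_prop))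
        have hg : ContinuousOn
            (fun t : ℝ => Complex.exp ((-(lam * t) : ℝ) * I) * unfold4 f (p + t • v, v)) I' :=
          (by fun_prop : Continuous fun t : ℝ =>
            Complex.exp ((-(lam * t) : ℝ) * I)).continuousOn.mul hg₀
        set val : Bool × Bool → ℂ := fun e =>
          if h : ∃ t, t ∈ I' ∧ p + t • v ∈ quad e then
            Complex.exp ((-(lam * h.choose) : ℝ) * I) * unfold4 f (p + h.choose • v, v)
          else 0
        have hmaps : MapsTo (fun t => (Complex.exp ((-(lam * t) : ℝ) * I) * unfold4 f (p + t • v, v))) I' (range val) := fun t ht => by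
          have hex : ∃ t', t' ∈ I' ∧ p + t' • v ∈ quad (pattern (p + t • v)) :=
            ⟨t, ht, mem_quad_pattern _⟩
          refine ⟨pattern (p + t • v), ?_⟩
          obtain ⟨h1, h2⟩ := hex.choose_spec
          simp only [val, dif_pos hex]
          rw [hwd _ _ v h1 h2 hv, hwd _ _ v ht (mem_quad_pattern _) hv]
          have hstep : fold (pattern (p + t • v)) (p + hex.choose • v)
              = fold (pattern (p + t • v)) (p + t • v)
                + (hex.choose - t) • fold (pattern (p + t • v)) v := by
            rw [← fold_smul, ← fold_add, add_assoc, ← add_smul, add_sub_cancel]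
          rw [hstep, hstr _ _ _ (hfold _ ht _ (mem_quad_pattern _)) (by rw [norm_fold, hv])
            (by rw [← hstep]; exact hfold _ h1 _ h2), ← mul_assoc, ← Complex.exp_add]
          congr 2
          push_cast
          ring
        have h := hconv.isPreconnected.constant_of_mapsTo (finite_range val).isDiscrete hg hmaps
          (show s ∈ I' from hs) (show (0 : ℝ) ∈ I' by simpa [hI'] using hp)
        simp only [zero_smul, add_zero, mul_zero, neg_zero, ofReal_zero, zero_mul, Complex.exp_zero,
          one_mul] at h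
        rw [← h, ← mul_assoc, ← Complex.exp_add, ← add_mul, ← ofReal_add, add_neg_cancel,
          ofReal_zero, zero_mul, Complex.exp_zero, one_mul]
      reflect := fun e p v hp h0 hv => by
        rw [hT, side_rhombus, mul_eq_zero, or_iff_right hL.ne'] at h0
        have o1 := (hmem p).1 hp (!e.1, e.2)
        have o2 := (hmem p).1 hp (e.1, !e.2)
        have he : p ∈ quad e := by
          constructor
          · cases h : e.1 <;> simp [sgn, h] at h0 o1 ⊢ <;> nlinarith
          · cases h : e.2 <;> simp [sgn, h] at h0 o2 ⊢ <;> nlinarith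
        have hseg : fold e p ∈ segment ℝ (a : ℂ) ((b : ℂ) * I) := by
          refine ⟨sgn e.1 * p.re / a, sgn e.2 * p.im / b, div_nonneg he.1 ha.le,
            div_nonneg he.2 hb.le, ?_, ?_⟩
          · field_simp
            linarith
          · apply Complex.ext <;> simp [fold_re, fold_im] <;> field_simp
        rw [hwd e _ _ hp he (by simp [refl, hv, (rhombus (b := b) ha).norm_N, hT]),
          hwd e _ _ hp he hv]
        rw [show T.N e = fold e (normal u) from rfl,
          fold_refl e (norm_normal hu0), refl_normal hu0]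
        exact (href _ _ (by rw [norm_fold, hv])).2.1 hseg }
  obtain ⟨c₀, h, hlam⟩ := wave_const H
  refine ⟨c₀, fun p hp v hv => ?_, hlam⟩
  obtain ⟨h1, h2, h3⟩ : 0 ≤ p.re ∧ 0 ≤ p.im ∧ b * p.re + a * p.im ≤ a * b := by
    have hs : convexHull ℝ ({0, (a : ℂ), (b : ℂ) * I} : Set ℂ)
        ⊆ {z | 0 ≤ z.re ∧ 0 ≤ z.im ∧ b * z.re + a * z.im ≤ a * b} := by
      refine convexHull_min ?_ ?_
      · rintro z (rfl | rfl | rfl) <;> refine ⟨?_, ?_, ?_⟩ <;> simp <;> nlinarith
      · rintro z ⟨z1, z2, z3⟩ w ⟨w1, w2, w3⟩ s t hs ht hst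
        obtain rfl : t = 1 - s := by linarith
        simp
        exact ⟨by nlinarith, by nlinarith,
          by nlinarith [mul_le_mul_of_nonneg_left z3 hs, mul_le_mul_of_nonneg_left w3 ht]⟩
    exact hs hp
  have hpK : p ∈ T.K := (hmem p).2 fun e => by
    rcases e with ⟨_ | _, _ | _⟩ <;> simp [sgn] <;> nlinarith
  have := h p hpK v hv
  rw [hwd (true, true) p v hpK ⟨by simpa [sgn] using h1, by simpa [sgn] using h2⟩ hv] at this
  have hid : ∀ z, fold (true, true) z = z := fun z => by
    apply Complex.ext <;> simp [fold_re, fold_im, sgn]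
  rwa [hid, hid] at this

end

end Vale.Agent.P099
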