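import Vale.Agent.P099.Eigen
import Vale.Agent.P099.Defs

/-!
# P099: triangles with three irrational angles, and irrational right triangles
-/

namespace Vale.Agent.P099

open Set Filter Metric Function Complex
open scoped Topology ComplexConjugate RealInnerProductSpace

noncomputable section

/-- The oriented area form. -/
def crossProd (u v : ℂ) : ℝ := (conj u * v).im

/-- The inward unit normal of a side with direction `u`, the inside being on the left. -/
def normal (u : ℂ) : ℂ := ((‖u‖⁻¹ : ℝ) : ℂ) * (I * u)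

theorem norm_normal {u : ℂ} (hu : u ≠ 0) : ‖normal u‖ = 1 := by
  simp [normal, inv_mul_cancel₀ (norm_ne_zero_iff.2 hu)]

theorem inner_normal (u z : ℂ) : ⟪normal u, z⟫ = ‖u‖⁻¹ * crossProd u z := by
  simp [normal, crossProd, Complex.inner]
  ring

theorem refl_normal {u : ℂ} (hu : u ≠ 0) (v : ℂ) : refl (normal u) v = mirror u v := by
  have hc : conj u ≠ 0 := by simpa using hu
  have hn : ((‖u‖ : ℝ) : ℂ) ^ 2 = conj u * u := (Complex.conj_mul' u).symm
  have hr : ((‖u‖ : ℝ) : ℂ) ≠ 0 := by simp [hu]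
  simp only [refl, normal, mirror, ofReal_inv, mul_pow, I_sq, inv_pow]
  rw [hn]
  field_simp

theorem side_normal (u P p : ℂ) :
    side (normal u) ⟪normal u, P⟫ p = ‖u‖⁻¹ * crossProd u (p - P) := by
  rw [side, ← inner_sub_right, inner_normal]

/-- The squared quotient of the normals in terms of the angle. -/
theorem ratio_ne_one {u w q : ℂ} {t : ℝ} (hu : u ≠ 0) (hw : w ≠ 0) (ht : t ≠ 0)
    (hq : conj u * w = (t : ℂ) * q) {k : ℕ} (hk : (q ^ k).im ≠ 0) :
    (normal u ^ 2 * conj (normal w ^ 2)) ^ k ≠ 1 ∧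
      (normal w ^ 2 * conj (normal u ^ 2)) ^ k ≠ 1 := by
  have key : (normal w ^ 2 * conj (normal u ^ 2)) ^ k ≠ 1 := fun h => by
    have e : normal w ^ 2 * conj (normal u ^ 2) = (conj u * w) / (u * conj w) := by
      have h1 := refl_normal hw 1
      have h2 := refl_normal hu 1
      simp only [refl, mirror, map_one, mul_one] at h1 h2
      have e1 : normal w ^ 2 = -(w / conj w) := by rw [← h1]; ring
      have e2 : normal u ^ 2 = -(u / conj u) := by rw [← h2]; ring
      rw [e1, e2]
      simp only [map_neg, map_div₀, conj_conj]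
      field_simp
    rw [e, show u * conj w = conj (conj u * w) by simp, hq, map_mul, conj_ofReal,
      mul_div_mul_left _ _ (ofReal_ne_zero.2 ht), div_pow, ← map_pow] at h
    have hne : conj (q ^ k) ≠ 0 := fun h0 => by simp [h0] at h
    exact hk (conj_eq_iff_im.1 ((div_eq_one_iff_eq hne).1 h).symm)
  refine ⟨fun h => key ?_, key⟩
  have := congrArg conj h
  simp only [map_pow, map_mul, map_one, conj_conj] at this ⊢
  rw [mul_comm]
  exact this

section Triangle

variable {A B C : ℂ}

theorem cross_sum (A B C p : ℂ) : crossProd (C - B) (p - B) + crossProd (A - C) (p - C)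
    + crossProd (B - A) (p - A) = crossProd (B - A) (C - A) := by
  simp [crossProd]; ring

theorem bary (A B C p : ℂ) : crossProd (B - A) (C - A) • p
    = crossProd (C - B) (p - B) • A + crossProd (A - C) (p - C) • B
      + crossProd (B - A) (p - A) • C := by
  apply Complex.ext <;> simp [crossProd] <;> ring

/-- The triangle as a table. -/
def triTable (hAB : B - A ≠ 0) (hBC : C - B ≠ 0) (hCA : A - C ≠ 0) : Table (Fin 3) where
  N := ![normal (B - A), normal (C - B), normal (A - C)]
  c := ![⟪normal (B - A), A⟫, ⟪normal (C - B), B⟫, ⟪normal (A - C), C⟫]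
  norm_N i := by fin_cases i <;> simp [norm_normal, hAB, hBC, hCA]

theorem mem_triTable (hAB : B - A ≠ 0) (hBC : C - B ≠ 0) (hCA : A - C ≠ 0) {p : ℂ} :
    p ∈ (triTable hAB hBC hCA).K ↔ 0 ≤ crossProd (B - A) (p - A) ∧
      0 ≤ crossProd (C - B) (p - B) ∧ 0 ≤ crossProd (A - C) (p - C) := by
  have h1 : 0 < ‖B - A‖⁻¹ := by positivity
  have h2 : 0 < ‖C - B‖⁻¹ := by positivity
  have h3 : 0 < ‖A - C‖⁻¹ := by positivity
  simp only [Table.K, mem_ofPred_eq, Fin.forall_fin_succ, Fin.succ_zero_eq_one, Fin.succ_one_eq_two,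
    IsEmpty.forall_iff, and_true, triTable, Matrix.cons_val_zero, Matrix.cons_val_one,
    Matrix.cons_val, side_normal, mul_nonneg_iff_of_pos_left h1, mul_nonneg_iff_of_pos_left h2,
    mul_nonneg_iff_of_pos_left h3]

theorem const_of_positive (hD : 0 < crossProd (B - A) (C - A)) (hA : IrrationalAngle A B C)
    (hB : IrrationalAngle B C A) (hC : IrrationalAngle C A B) {lam : ℝ} {f : ℂ × ℂ → ℂ}
    (hf : ContinuousEigenfunction A B C lam f) :
    ∃ c₀, (∀ p ∈ convexHull ℝ {A, B, C}, ∀ v : ℂ, ‖v‖ = 1 → f (p, v) = c₀) ∧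
      (lam = 0 ∨ c₀ = 0) := by
  obtain ⟨hcont, hstr, href⟩ := hf
  have hAB : B - A ≠ 0 := fun h => by simp [h, crossProd] at hD
  have hCA : A - C ≠ 0 := fun h => by
    rw [sub_eq_zero.1 h] at hD; simp [crossProd] at hD
  have hBC : C - B ≠ 0 := fun h => by
    rw [sub_eq_zero.1 h] at hD
    simp [crossProd] at hD
    linarith
  set T := triTable hAB hBC hCA with hT
  have hsum := cross_sum A B C
  have hcomb : ∀ p, p ∈ T.K → p ∈ convexHull ℝ {A, B, C} ∧
      (crossProd (B - A) (p - A) = 0 → p ∈ segment ℝ A B) ∧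
      (crossProd (C - B) (p - B) = 0 → p ∈ segment ℝ B C) ∧
      (crossProd (A - C) (p - C) = 0 → p ∈ segment ℝ C A) := by
    intro p hp
    obtain ⟨h3, h1, h2⟩ := (mem_triTable hAB hBC hCA).1 hp
    set D := crossProd (B - A) (C - A)
    set x := crossProd (C - B) (p - B)
    set y := crossProd (A - C) (p - C)
    set z := crossProd (B - A) (p - A)
    have hp' : p = (x / D) • A + (y / D) • B + (z / D) • C := by
      have hb : D • p = x • A + y • B + z • C := bary A B C p
      calc p = D⁻¹ • (D • p) := (inv_smul_smul₀ hD.ne' p).symm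
        _ = _ := by rw [hb, smul_add, smul_add, smul_smul, smul_smul, smul_smul]; simp only [div_eq_inv_mul]
    have hs : x / D + y / D + z / D = 1 := by
      rw [← add_div, ← add_div, hsum p, div_self hD.ne']
    have hx : 0 ≤ x / D := div_nonneg h1 hD.le
    have hy : 0 ≤ y / D := div_nonneg h2 hD.le
    have hz : 0 ≤ z / D := div_nonneg h3 hD.le
    refine ⟨?_, fun h => ?_, fun h => ?_, fun h => ?_⟩
    · have := (convex_convexHull ℝ ({A, B, C} : Set ℂ)).sum_mem
        (t := Finset.univ) (w := ![x / D, y / D, z / D]) (z := ![A, B, C])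
        (fun i _ => by fin_cases i <;> assumption) (by simpa [Fin.sum_univ_three] using hs)
        (fun i _ => subset_convexHull ℝ _ (by fin_cases i <;> simp))
      rw [hp']
      simpa [Fin.sum_univ_three] using this
    · exact ⟨x / D, y / D, hx, hy, by simpa [h] using hs, by rw [hp', h]; simp⟩
    · exact ⟨y / D, z / D, hy, hz, by simpa [h] using hs, by rw [hp', h]; simp⟩
    · exact ⟨z / D, x / D, hz, hx, by rw [h] at hs; simp at hs; linarith,
        by rw [hp', h]; simp [add_comm]⟩
  have hK : T.K = convexHull ℝ {A, B, C} := by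
    refine subset_antisymm (fun p hp => (hcomb p hp).1) (convexHull_min ?_ ?_)
    · rintro p (rfl | rfl | rfl) <;> refine (mem_triTable hAB hBC hCA).2 ⟨?_, ?_, ?_⟩ <;>
        simp [crossProd] at hD ⊢ <;> linarith
    · intro p hp q hq s t hs ht hst i
      show 0 ≤ side _ _ _
      have h1 : 0 ≤ ⟪T.N i, p⟫ - T.c i := hp i
      have h2 : 0 ≤ ⟪T.N i, q⟫ - T.c i := hq i
      rw [side, inner_add_right, inner_smul_right, inner_smul_right]
      obtain rfl : t = 1 - s := by linarith
      nlinarith [mul_nonneg hs h1, mul_nonneg ht h2]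
  have hang : ∀ k : ℕ, 0 < k →
      ((normal (B - A) ^ 2 * conj (normal (A - C) ^ 2)) ^ k ≠ 1 ∧
        (normal (A - C) ^ 2 * conj (normal (B - A) ^ 2)) ^ k ≠ 1) ∧
      ((normal (C - B) ^ 2 * conj (normal (B - A) ^ 2)) ^ k ≠ 1 ∧
        (normal (B - A) ^ 2 * conj (normal (C - B) ^ 2)) ^ k ≠ 1) ∧
      ((normal (A - C) ^ 2 * conj (normal (C - B) ^ 2)) ^ k ≠ 1 ∧
        (normal (C - B) ^ 2 * conj (normal (A - C) ^ 2)) ^ k ≠ 1) := fun k hk => by
    have key : ∀ {u w : ℂ}, u ≠ 0 → conj u * -w = ((-‖u‖ ^ 2 : ℝ) : ℂ) * (w / u) := fun {u w} hu => by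
      rw [ofReal_neg, ofReal_pow, ← Complex.conj_mul']
      field_simp
    have hne : ∀ {u : ℂ}, u ≠ 0 → (-‖u‖ ^ 2 : ℝ) ≠ 0 := fun hu => by simp [hu]
    refine ⟨ratio_ne_one (t := -‖B - A‖ ^ 2) hAB hCA (hne hAB) ?_ (hA k hk),
      ratio_ne_one (t := -‖C - B‖ ^ 2) hBC hAB (hne hBC) ?_ (hB k hk),
      ratio_ne_one (t := -‖A - C‖ ^ 2) hCA hBC (hne hCA) ?_ (hC k hk)⟩
    · rw [← key hAB, neg_sub]
    · rw [← key hBC, neg_sub]
    · rw [← key hCA, neg_sub]
  have H : Wave T f lam :=
    { bounded := by rw [hK]; exact (toFinite _).isCompact_convexHull ℝ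
      nonempty := by
        refine ⟨(3 : ℝ)⁻¹ • (A + B + C), fun i => ?_⟩
        fin_cases i <;>
        · simp only [hT, triTable, Fin.isValue, Fin.zero_eta, Fin.mk_one, Fin.reduceFinMk,
            Matrix.cons_val_zero, Matrix.cons_val_one, Matrix.cons_val, side_normal]
          refine mul_pos (by positivity) ?_
          simp [crossProd] at hD ⊢
          linarith
      irrational := fun p _ i j hij _ _ k hk => by
        obtain ⟨⟨a1, a2⟩, ⟨b1, b2⟩, c1, c2⟩ := hang k hk
        fin_cases i <;> fin_cases j <;> first | exact absurd rfl hij | assumption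
      cont := by rw [hK]; exact hcont
      straight := fun p v s hp hv hs => hstr p v s (hK ▸ hp) hv (hK ▸ hs)
      reflect := fun i p v hp h0 hv => by
        obtain ⟨-, hab, hbc, hca⟩ := hcomb p hp
        obtain ⟨r1, r2, r3⟩ := href p v hv
        fin_cases i <;>
          simp only [hT, triTable, Fin.isValue, Fin.zero_eta, Fin.mk_one, Fin.reduceFinMk,
            Matrix.cons_val_zero, Matrix.cons_val_one, Matrix.cons_val, side_normal,
            mul_eq_zero, inv_eq_zero, norm_eq_zero, hAB, hBC, hCA, false_or] at h0 ⊢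
        · rw [refl_normal hAB]; exact r1 (hab h0)
        · rw [refl_normal hBC]; exact r2 (hbc h0)
        · rw [refl_normal hCA]; exact r3 (hca h0) }
  obtain ⟨c₀, h, hlam⟩ := wave_const H
  exact ⟨c₀, fun p hp => h p (hK ▸ hp), hlam⟩

theorem irrationalAngle_comm (h : IrrationalAngle A B C) : IrrationalAngle A C B :=
  fun k hk h0 => h k hk (by
    rw [← inv_div, inv_pow] at h0
    rw [Complex.inv_im, div_eq_zero_iff, neg_eq_zero] at h0
    exact h0.elim id fun h1 => by simp [Complex.normSq_eq_zero.1 h1])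

theorem mirror_sub_comm (P Q v : ℂ) : mirror (P - Q) v = mirror (Q - P) v := by
  unfold mirror
  rw [← neg_sub Q P, map_neg, neg_div_neg_eq]

theorem const_of_irrational (hA : IrrationalAngle A B C) (hB : IrrationalAngle B C A)
    (hC : IrrationalAngle C A B) {lam : ℝ} {f : ℂ × ℂ → ℂ}
    (hf : ContinuousEigenfunction A B C lam f) :
    ∃ c₀, (∀ p ∈ convexHull ℝ {A, B, C}, ∀ v : ℂ, ‖v‖ = 1 → f (p, v) = c₀) ∧
      (lam = 0 ∨ c₀ = 0) := by
  rcases lt_trichotomy (crossProd (B - A) (C - A)) 0 with h | h | h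
  · have hset : ({A, C, B} : Set ℂ) = {A, B, C} := by rw [Set.pair_comm C B]
    obtain ⟨hc, hs, hr⟩ := hf
    rw [← hset]
    refine const_of_positive ?_ (irrationalAngle_comm hA) (irrationalAngle_comm hC)
      (irrationalAngle_comm hB) ⟨by rwa [hset], by rwa [hset], fun p v hv => ?_⟩
    · simp [crossProd] at h ⊢
      linarith
    · obtain ⟨r1, r2, r3⟩ := hr p v hv
      refine ⟨fun hp => ?_, fun hp => ?_, fun hp => ?_⟩
      · rw [mirror_sub_comm]; exact r3 (by rwa [segment_symm])
      · rw [mirror_sub_comm]; exact r2 (by rwa [segment_symm])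
      · rw [mirror_sub_comm]; exact r1 (by rwa [segment_symm])
  · refine absurd ?_ (hA 1 one_pos)
    simp [crossProd, Complex.div_im] at h ⊢
    rw [← sub_div, div_eq_zero_iff]
    left
    linarith
  · exact const_of_positive h hA hB hC hf

end Triangle

end

end Vale.Agent.P099
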